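import Vale.Agent.P221X.EX.Defs

/-!
# P221X, block EX: valuations of Laurent series
-/

set_option linter.all false

noncomputable section

namespace Vale.Agent.P221X.EX

open Finset

variable {k : Type} [Field k] {e e' d : ℤ} {f g : Ls k}

theorem Ge.mono (h : Ge e f) (c : e' ≤ e) : Ge e' f := fun n hn => h n (hn.trans_le c)

theorem Ge.zero (e : ℤ) : Ge e (0 : Ls k) := fun _ _ => rfl

theorem Ge.add (h : Ge e f) (h' : Ge e g) : Ge e (f + g) := fun n hn => by simp [h n hn, h' n hn]

theorem Ge.neg (h : Ge e f) : Ge e (-f) := fun n hn => by simp [h n hn]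

theorem Ge.sub (h : Ge e f) (h' : Ge e g) : Ge e (f - g) := fun n hn => by simp [h n hn, h' n hn]

theorem Ge.smul (h : Ge e f) (c : k) : Ge e (c • f) := fun n hn => by simp [h n hn]

theorem Ge.sum {ι : Type} {s : Finset ι} {F : ι → Ls k} (h : ∀ i ∈ s, Ge e (F i)) :
    Ge e (∑ i ∈ s, F i) :=
  Finset.sum_induction _ _ (fun _ _ => Ge.add) (Ge.zero e) h

theorem Ge.mul (h : Ge e f) (h' : Ge e' g) : Ge (e + e') (f * g) := fun n hn => by
  rw [HahnSeries.coeff_mul]
  refine Finset.sum_eq_zero fun ij hij => ?_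
  have := (Finset.mem_addAntidiagonal.1 hij).2.2
  by_cases c : ij.1 < e
  · rw [h _ c, zero_mul]
  · rw [h' _ (by omega), mul_zero]

theorem exists_ge (f : Ls k) : ∃ e, Ge e f :=
  ⟨f.order, fun _ hn => HahnSeries.coeff_eq_zero_of_lt_order hn⟩

theorem eq_zero_of_ge (h : ∀ e, Ge e f) : f = 0 := by
  ext n
  exact h (n + 1) n (by omega)

theorem coeff_mon (i n : ℤ) : (mon k i).coeff n = if n = i then 1 else 0 := by
  simp [mon, HahnSeries.coeff_single]

theorem ge_mon (i : ℤ) : Ge i (mon k i) := fun n hn => by rw [coeff_mon, if_neg hn.ne]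

theorem lead_mon (i : ℤ) : Lead i (mon k i) := ⟨ge_mon i, by simp [coeff_mon]⟩

theorem mon_add (i j : ℤ) : mon k (i + j) = mon k i * mon k j := by
  simp [mon, HahnSeries.single_mul_single]

theorem mon_zero : mon k 0 = 1 := rfl

theorem coeff_mon_mul (i n : ℤ) (f : Ls k) : (mon k i * f).coeff (n + i) = f.coeff n := by
  rw [mon, HahnSeries.coeff_single_mul_add, one_mul]

theorem coeff_mul_mon (f : Ls k) (i n : ℤ) : (f * mon k i).coeff (n + i) = f.coeff n := by
  rw [mul_comm, coeff_mon_mul]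

theorem Lead.mon_mul {v : ℤ} (h : Lead v f) (i : ℤ) : Lead (v + i) (mon k i * f) :=
  ⟨add_comm i v ▸ (ge_mon i).mul h.1, by rw [coeff_mon_mul, h.2]⟩

/-- removal of the lowest term -/
theorem Ge.tail (h : Ge e f) : Ge (e + 1) (f - f.coeff e • mon k e) := fun n hn => by
  rcases eq_or_ne n e with rfl | c
  · simp [coeff_mon]
  · simp [coeff_mon, c, h n (by omega)]

theorem Lead.tail {v : ℤ} (h : Lead v f) : Ge (v + 1) (f - mon k v) := by
  simpa [h.2] using h.1.tail

/-- a series is a finite sum of monomials and a series of large valuation -/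
theorem mem_of (W : Submodule k (Ls k)) (N : ℤ) (f : Ls k)
    (hN : ∀ g, Ge N g → (∀ n, f.coeff n = 0 → g.coeff n = 0) → g ∈ W)
    (hm : ∀ i, f.coeff i ≠ 0 → mon k i ∈ W) : f ∈ W := by
  obtain ⟨e, he⟩ := exists_ge f
  obtain ⟨m, hm'⟩ : ∃ m : ℕ, N ≤ e + m := ⟨(N - e).toNat, by omega⟩
  induction m generalizing f e with
  | zero => exact hN f (he.mono (by omega)) fun _ h => h
  | succ m ih =>
    have key : ∀ n, f.coeff n = 0 → (f - f.coeff e • mon k e).coeff n = 0 := fun n hn => by
      rcases eq_or_ne n e with rfl | c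
      · simp [hn]
      · simp [coeff_mon, c, hn]
    have h1 := ih (f - f.coeff e • mon k e) (fun g hg h => hN g hg fun n hn => h n (key n hn))
      (fun i hi => hm i fun c => hi (key i c)) (e + 1) he.tail (by push_cast at hm'; omega)
    rw [← sub_add_cancel f (f.coeff e • mon k e)]
    refine W.add_mem h1 ?_
    by_cases c : f.coeff e = 0
    · simp [c]
    · exact W.smul_mem _ (hm e c)

variable {β γ : Bl k}

theorem DegB.mono (h : DegB β d) {d' : ℤ} (c : d' ≤ d) : DegB β d' :=
  fun e e' f g hf hg hd => h e e' f g hf hg (by omega)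

theorem DegB.add (h : DegB β d) (h' : DegB γ d) : DegB (β + γ) d :=
  fun e e' f g hf hg hd => by simp [h e e' f g hf hg hd, h' e e' f g hf hg hd]

theorem DegB.zero (d : ℤ) : DegB (0 : Bl k) d := fun _ _ _ _ _ _ _ => rfl

theorem DegB.smul (h : DegB β d) (c : k) : DegB (c • β) d :=
  fun e e' f g hf hg hd => by simp [h e e' f g hf hg hd]

theorem DegB.sum {ι : Type} {s : Finset ι} {F : ι → Bl k} (h : ∀ i ∈ s, DegB (F i) d) :
    DegB (∑ i ∈ s, F i) d :=
  Finset.sum_induction _ (fun β => DegB β d) (fun _ _ => DegB.add) (DegB.zero d) h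

theorem DegB.flip (h : DegB β d) : DegB β.flip d :=
  fun e e' f g hf hg hd => h e' e g f hg hf (by omega)

theorem PerB.flip {p : ℕ} (h : PerB p β) : PerB p β.flip :=
  fun M e e' f g hf hg hd => (h M e' e g f hg hf (by omega)).symm

theorem StabB.flip (h : StabB β) : StabB β.flip := fun z z' hz hz' => h z' z hz' hz

/-- only the leading terms count in the critical degree -/
theorem DegB.lead (h : DegB β d) {v w : ℤ} (hf : Lead v f) (hg : Lead w g) (c : v + w + d = 1) :
    β f g = β (mon k v) (mon k w) := by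
  have h1 := h _ _ _ _ hf.tail hg.1 (by omega)
  have h2 := h _ _ _ _ (ge_mon v) hg.tail (by omega)
  rw [map_sub, LinearMap.sub_apply, sub_eq_zero] at h1
  rw [map_sub, sub_eq_zero] at h2
  rw [h1, h2]

/-- it is enough to test on monomials -/
theorem DegB.eq_zero (h : DegB β d) (H : ∀ i, β f (mon k i) = 0) : β f = 0 := by
  obtain ⟨e, he⟩ := exists_ge f
  ext g
  exact mem_of (LinearMap.ker (β f)) (2 - e - d) g (fun g hg _ => h _ _ _ _ he hg (by omega))
    fun i _ => H i

theorem stab_of (H : ∀ m m' : ℕ, β (mon k (-m)) (mon k (-m')) = 0) : StabB β := by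
  have key : ∀ (W : Submodule k (Ls k)) (z : Ls k), InZ z → (∀ m : ℕ, mon k (-m) ∈ W) → z ∈ W :=
    fun W z hz hW => mem_of W 1 z (fun g hg h => by
      have : g = 0 := by
        ext n
        by_cases c : 0 < n
        · exact h n (hz n c)
        · exact hg n (by omega)
      exact this ▸ W.zero_mem) fun i hi => by
      have : i ≤ 0 := not_lt.1 fun c => hi (hz i c)
      exact (show -(i.natAbs : ℤ) = i by omega) ▸ hW i.natAbs
  intro z z' hz hz'
  exact key (LinearMap.ker (β.flip z')) z hz fun m => key (LinearMap.ker (β (mon k (-m)))) z' hz'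
    fun m' => H m m'

theorem inZ_mon (m : ℕ) : InZ (mon k (-m)) := fun n hn => by rw [coeff_mon, if_neg (by omega)]

theorem coeff_inc (p : ℕ) (f : Ls k) (n : ℤ) : (inc p k f).coeff ((p + 1) * n) = f.coeff n :=
  HahnSeries.embDomain_coeff

theorem inc_mon (p : ℕ) (i : ℤ) : inc p k (mon k i) = mon k ((p + 1) * i) :=
  HahnSeries.embDomain_single

theorem Ge.inc (h : Ge e f) (p : ℕ) : Ge ((p + 1) * e) (inc p k f) := fun n hn => by
  by_cases c : ∃ m, ((p : ℤ) + 1) * m = n
  · obtain ⟨m, rfl⟩ := c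
    rw [coeff_inc]
    exact h m (lt_of_mul_lt_mul_left hn (by positivity))
  · exact HahnSeries.embDomain_notin_range c

/-- the degree of the form of an operator which raises valuations by more than `(p+1) (d-1)` -/
theorem degB_bil {p : ℕ} {A : Ls k →ₗ[k] Ls k} {N : ℤ} (h : ∀ e f, Ge e f → Ge (e + N) (A f))
    (c : (p + 1) * (d - 1) < N) : DegB (bil p A) d := fun e e' f g hf hg hd => by
  refine ((h _ _ (hf.inc p)).mul (hg.inc p)) _ ?_
  have : ((p : ℤ) + 1) * 1 ≤ (p + 1) * (e + e' + d - 1) :=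
    mul_le_mul_of_nonneg_left (by omega) (by positivity)
  nlinarith

end Vale.Agent.P221X.EX
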