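import Mathlib

/-!
# P221X, block EX: the counting lemma
-/

set_option linter.all false

namespace Vale.Agent.P221X.EX

/-- `L v l`: the tower which starts at `v` has length at least `l` -/
structure Tw (L : ℤ → ℕ → Prop) : Prop where
  zero : ∀ v, L v 0
  mono : ∀ v l, L v (l + 1) → L v l
  top : ∀ l, L 0 l
  inj : ∀ v v' (l l' : ℕ), L v l → ¬ L v (l + 1) → L v' l' → ¬ L v' (l' + 1) → v + l = v' + l' →
    v = v'

/-- the lengths up to `r` are periodic -/
def Per (L : ℤ → ℕ → Prop) (P r : ℕ) : Prop := ∀ v l, l ≤ r → (L (v + P) l ↔ L v l)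

variable {L : ℤ → ℕ → Prop} {P r : ℕ}

theorem Tw.le (h : Tw L) {v : ℤ} {l l' : ℕ} (e : l ≤ l') (H : L v l') : L v l := by
  induction e with
  | refl => exact H
  | step _ ih => exact ih (h.mono _ _ H)

theorem Tw.ex (h : Tw L) {v : ℤ} {X : ℕ} (H : ¬ L v X) : ∃ l < X, L v l ∧ ¬ L v (l + 1) := by
  induction X with
  | zero => exact absurd (h.zero v) H
  | succ X ih =>
    by_cases h1 : L v X
    · exact ⟨X, X.lt_succ_self, h1, H⟩
    · obtain ⟨l, hl, h2⟩ := ih h1
      exact ⟨l, hl.trans X.lt_succ_self, h2⟩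

theorem Per.mul (h : Per L P r) (c v : ℤ) {l : ℕ} (hl : l ≤ r) : L (v + c * P) l ↔ L v l := by
  induction c using Int.induction_on with
  | zero => simp
  | succ n ih => rw [← ih, ← h (v + n * P) l hl]; congr! 1; ring
  | pred n ih => rw [← ih, ← h (v + (-n - 1) * P) l hl]; congr! 1; ring

/-- the counting lemma for two levels -/
theorem Tw.count (h : Tw L) {P' r' X X' : ℕ} (V : ℤ) (per : Per L P r) (per' : Per L P' r')
    (hP : 0 < P) (i1 : 2 * X + V ≤ P + r) (i2 : X + V ≤ r') (i3 : X' + X ≤ 2 * P + r)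
    (i4 : r ≤ r') (i5 : X ≤ r') :
    (∃ a : ℤ, -V ≤ a ∧ a < P - V ∧ (L (P - a) X ∨ (X ≤ a ∧ L (P - a) r))) ∨ L P' X' := by
  classical
  by_contra! H
  obtain ⟨H, H'⟩ := H
  haveI : NeZero P := ⟨hP.ne'⟩
  have hP' : (0 : ℤ) < P := by exact_mod_cast hP
  -- every point of the window has a finite length
  have h1 : ∀ a : Set.Ico (-V) (P - V), ∃ l < X, L (P - a) l ∧ ¬ L (P - a) (l + 1) := fun a =>
    h.ex (H a a.2.1 a.2.2).1
  choose len hX hL hN using h1
  have h2 : ∀ a : Set.Ico (-V) (P - V), r ≤ len a → (a : ℤ) < X := fun a e => by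
    by_contra h3
    exact (H a a.2.1 a.2.2).2 (not_lt.1 h3) (h.le e (hL a))
  -- the targets are distinct modulo `P`
  have key : ∀ (a : Set.Ico (-V) (P - V)) (w : ℤ) (l : ℕ) (c : ℤ), len a < r → L w l →
      ¬ L w (l + 1) → w + l = P - a + len a + c * P → l = len a ∧ w = P - a + c * P := by
    intro a w l c ha hw hw' e
    have := h.inj w (P - a + c * P) l (len a) hw hw' ((per.mul c _ ha.le).2 (hL a))
      (fun e => hN a ((per.mul c _ ha).1 e)) (by linarith)
    exact ⟨by omega, this⟩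
  have inj : Function.Injective fun a : Set.Ico (-V) (P - V) => ((len a - a : ℤ) : ZMod P) := by
    intro a a' e
    obtain ⟨c, hc⟩ := (ZMod.intCast_eq_intCast_iff_dvd_sub _ _ _).1 e
    have b1 := a.2.1; have b2 := a.2.2; have b3 := a'.2.1; have b4 := a'.2.2
    have fin : ∀ c : ℤ, (a' : ℤ) - a = c * P → a = a' := fun c e => by
      have : c = 0 := by
        by_contra h0
        rcases lt_or_gt_of_ne h0 with h0 | h0 <;> nlinarith
      exact Subtype.ext (by rw [this] at e; linarith)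
    by_cases ha : len a < r
    · have := (key a (P - a') (len a') c ha (hL a') (hN a') (by linarith)).2
      exact fin (-c) (by linarith)
    by_cases ha' : len a' < r
    · have := (key a' (P - a) (len a) (-c) ha' (hL a) (hN a) (by linarith)).2
      exact fin (-c) (by linarith)
    have c0 : c = 0 := by
      have := h2 a (not_lt.1 ha); have := h2 a' (not_lt.1 ha')
      have := hX a; have := hX a'
      by_contra h0
      rcases lt_or_gt_of_ne h0 with h0 | h0
      · have : (P : ℤ) * c ≤ -P := by nlinarith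
        omega
      · have : (P : ℤ) ≤ P * c := by nlinarith
        omega
    have := h.inj _ _ _ _ (hL a) (hN a) (hL a') (hN a') (by rw [c0] at hc; linarith)
    exact Subtype.ext (by linarith)
  have bij := (Nat.bijective_iff_injective_and_card _).2 ⟨inj, by simp⟩
  -- the tower at `P'`
  obtain ⟨l, hl, hL', hN'⟩ := h.ex H'
  have hr : r' ≤ l := by
    by_contra h3
    exact hN' (by simpa using (per' 0 (l + 1) (by omega)).2 (h.top _))
  have hB : ∀ (w : ℤ) (m : ℕ), m < r' → L w m → ¬ L w (m + 1) → w + m ≠ l := fun w m hm hw hw' e => by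
    have := h.inj (w + P') P' m l ((per' w m hm.le).2 hw) (fun e => hw' ((per' w _ hm).1 e)) hL' hN'
      (by linarith)
    omega
  obtain ⟨a, ha⟩ := bij.2 (l : ℤ)
  obtain ⟨c, hc⟩ := (ZMod.intCast_eq_intCast_iff_dvd_sub _ _ _).1 ha
  have b1 := a.2.1; have b2 := a.2.2; have b3 := hX a
  by_cases ha : len a < r
  · exact hB (P - a + (c - 1) * P) (len a) (by omega) ((per.mul _ _ ha.le).2 (hL a))
      (fun e => hN a ((per.mul _ _ ha).1 e)) (by linarith)
  have b4 := h2 a (not_lt.1 ha)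
  rcases lt_trichotomy c 1 with h0 | rfl | h0
  · have : (P : ℤ) * c ≤ 0 := by nlinarith
    omega
  · exact hB (P - a) (len a) (by omega) (hL a) (hN a) (by linarith)
  · have : 2 * (P : ℤ) ≤ P * c := by nlinarith
    omega

/-- `⌈p ^ M / (p + 1)⌉` -/
def rr (p M : ℕ) : ℕ := (p ^ M + p) / (p + 1)

/-- `⌈8 p ^ (M - 1) / 5⌉` -/
def XX (p M : ℕ) : ℕ := (8 * p ^ (M - 1) + 4) / 5

theorem le_rr (p M : ℕ) : p ^ M ≤ (p + 1) * rr p M := by
  have := Nat.lt_mul_div_succ (p ^ M + p) p.succ_pos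
  rw [rr]
  simp only [Nat.succ_eq_add_one, mul_add, mul_one] at this ⊢
  omega

theorem rr_le_iff {p M l : ℕ} : rr p M ≤ l ↔ p ^ M ≤ (p + 1) * l := by
  rw [rr, Nat.div_le_iff_le_mul_add_pred p.succ_pos]
  simp

theorem le_rr' {p : ℕ} (hp : 5 ≤ p) (M : ℕ) : 5 * p ^ M ≤ 6 * rr p (M + 1) := by
  have h := le_rr p (M + 1)
  rw [pow_succ] at h
  refine Nat.le_of_mul_le_mul_left (c := p) ?_ (by omega)
  nlinarith [Nat.zero_le (rr p (M + 1))]

theorem Per.mono (h : Per L P r) {r' : ℕ} (e : r' ≤ r) : Per L P r' := fun v l hl =>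
  h v l (hl.trans e)

/-- **Counting lemma** -/
theorem Tw.count_pow (h : Tw L) {p : ℕ} (hp : 5 ≤ p) (per : ∀ M, Per L (p ^ M) (rr p M))
    (V M0 : ℕ) : ∃ M ≥ M0, ∃ a : ℤ, -V ≤ a ∧ a < p ^ M - V ∧
      (L (p ^ M - a) (XX p M) ∨ (XX p M ≤ a ∧ L (p ^ M - a) (rr p M))) := by
  obtain ⟨N, h0, hV⟩ : ∃ N, M0 ≤ N ∧ V + 5 ≤ p ^ N :=
    ⟨M0 + (V + 5), by omega, (Nat.lt_pow_self (by omega)).le.trans
      (Nat.pow_le_pow_right (by omega) (by omega))⟩
  have h1 : 5 * p ^ N ≤ p ^ (N + 1) := by rw [pow_succ, mul_comm]; exact Nat.mul_le_mul_left _ hp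
  have h2 : 5 * p ^ (N + 1) ≤ p ^ (N + 1 + 1) := by
    rw [pow_succ _ (N + 1), mul_comm]; exact Nat.mul_le_mul_left _ hp
  have h3 := le_rr' hp (N + 1)
  have h4 : rr p (N + 1) ≤ rr p (N + 1 + 1) := Nat.div_le_div_right (by omega)
  rcases h.count (X := XX p (N + 1)) (X' := XX p (N + 1 + 1)) V (per (N + 1)) (per (N + 1 + 1))
    (by omega) (by simp only [XX, Nat.add_sub_cancel]; omega)
    (by simp only [XX, Nat.add_sub_cancel]; omega) (by simp only [XX, Nat.add_sub_cancel]; omega)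
    h4 (by simp only [XX, Nat.add_sub_cancel]; omega) with ⟨a, ha⟩ | ha
  · exact ⟨N + 1, by omega, a, by simpa using ha⟩
  · refine ⟨N + 1 + 1, by omega, 0, by omega, ?_, .inl (by simpa using ha)⟩
    have : V < p ^ (N + 1 + 1) := by omega
    zify at this
    omega

end Vale.Agent.P221X.EX
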