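import Vale.Agent.P221X.EX.Bas

/-!
# P221X, block EX: divided differences and periodicity
-/

set_option linter.all false

noncomputable section

namespace Vale.Agent.P221X.EX

open Finset WithZero

section dv

variable {K Γ ι : Type*} [Field K] [LinearOrderedCommGroupWithZero Γ] [DecidableEq ι] {ε : ι → K}
  {S : Finset ι}

variable (ε S) in
/-- the divided difference of the values `F l` at the nodes `ε l` -/
def Dv (F : ι → K) : K := ∑ l ∈ S, F l / ∏ m ∈ S.erase l, (ε l - ε m)

theorem Dv_erase (h : Set.InjOn ε S) {a : ι} (ha : a ∈ S) (F : ι → K) :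
    Dv ε S (fun l => (ε l - ε a) * F l) = Dv ε (S.erase a) F := by
  rw [Dv, ← add_sum_erase _ _ ha, sub_self, zero_mul, zero_div, zero_add]
  refine sum_congr rfl fun l hl => ?_
  obtain ⟨h1, h2⟩ := mem_erase.1 hl
  rw [← mul_prod_erase _ _ (mem_erase.2 ⟨h1.symm, ha⟩), erase_right_comm,
    mul_div_mul_left _ _ (sub_ne_zero.2 fun e => h1 (h h2 ha e))]

theorem Dv_succ (h : Set.InjOn ε S) (h1 : ∀ l, 1 + ε l ≠ 0) {a : ι} (ha : a ∈ S) (i : ℤ) :
    Dv ε S (fun l => (1 + ε l) ^ (i + 1)) =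
      Dv ε (S.erase a) (fun l => (1 + ε l) ^ i) + (1 + ε a) * Dv ε S fun l => (1 + ε l) ^ i := by
  rw [← Dv_erase h ha, Dv, Dv, Dv, mul_sum, ← sum_add_distrib]
  refine sum_congr rfl fun l _ => ?_
  rw [zpow_add_one₀ (h1 l)]
  ring

theorem bn_succ (i : ℤ) (j : ℕ) : bn K (i + 1) (j + 1) = bn K i j + bn K i (j + 1) := by
  simp [bn, Ring.choose_succ_succ]

theorem Dv_val (v : Valuation K Γ) (hε : ∀ l, v (ε l) < 1) (j : ℕ) (hS : S.card = j + 1)
    (h : Set.InjOn ε S) (i : ℤ) : v (Dv ε S (fun l => (1 + ε l) ^ i) - bn K i j) < 1 := by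
  have h1 : ∀ l, v (1 + ε l) = 1 := fun l => v.map_one_add_of_lt (hε l)
  have h2 : ∀ l, 1 + ε l ≠ 0 := fun l e => by simpa [e] using h1 l
  have h3 : ∀ i j, v (bn K i j) ≤ 1 := fun i j => intCast_mem v.integer _
  have h4 : ∀ l i j, v (ε l * bn K i j) < 1 := fun l i j => by
    rw [map_mul]
    exact (mul_le_of_le_one_right' (h3 i j)).trans_lt (hε l)
  have step : ∀ (a : ι) (x y c d : K), v (y - d) < 1 → v (ε a * c) < 1 →
      (v (y + (1 + ε a) * x - (d + c)) < 1 ↔ v (x - c) < 1) := fun a x y c d hy hc => by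
    have e : y + (1 + ε a) * x - (d + c) = (1 + ε a) * (x - c) + (y - d + ε a * c) := by ring
    have h5 := v.map_add_lt hy hc
    rw [e, ← one_mul (v (x - c)), ← h1 a, ← map_mul, h1 a]
    exact ⟨fun H => by simpa using v.map_sub_lt H h5, fun H => v.map_add_lt H h5⟩
  induction j generalizing S i with
  | zero =>
    obtain ⟨a, rfl⟩ := card_eq_one.1 hS
    have e : ∀ i : ℤ, v ((1 + ε a) ^ (i + 1) - 1) < 1 ↔ v ((1 + ε a) ^ i - 1) < 1 := fun i => by
      simpa [zpow_add_one₀ (h2 a), mul_comm] using step a ((1 + ε a) ^ i) 0 1 0 (by simp)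
        (by simpa using hε a)
    simp only [Dv, sum_singleton, erase_singleton, prod_empty, div_one, bn_zero]
    induction i using Int.induction_on with
    | zero => simp
    | succ n ih => exact (e _).2 ih
    | pred n ih => exact (e _).1 (by simpa using ih)
  | succ j ih =>
    obtain ⟨a, ha⟩ := card_pos.1 (hS ▸ Nat.succ_pos _ : 0 < S.card)
    have e : ∀ i : ℤ, v (Dv ε S (fun l => (1 + ε l) ^ (i + 1)) - bn K (i + 1) (j + 1)) < 1 ↔
        v (Dv ε S (fun l => (1 + ε l) ^ i) - bn K i (j + 1)) < 1 := fun i => by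
      rw [Dv_succ h h2 ha, bn_succ]
      exact step a _ _ _ _ (ih (by rw [card_erase_of_mem ha, hS]; rfl)
        (h.mono (erase_subset _ _)) i) (h4 _ _ _)
    induction i using Int.induction_on with
    | zero =>
      have := Lagrange.coeff_eq_sum h (P := 1) (by rw [hS, Polynomial.degree_one]; exact_mod_cast Nat.succ_pos _)
      simp only [hS, Polynomial.eval_one, Nat.add_sub_cancel, Polynomial.coeff_one,
        Nat.succ_ne_zero, if_false, one_div] at this
      simp [Dv, bn, ← this]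
    | succ n ih => exact (e _).2 ih
    | pred n ih => exact (e _).1 (by simpa using ih)

end dv

variable {k : Type} [Field k] {e : ℤ} {f g : Ls k} {σ σ' : Ls k →ₗ[k] Ls k}

theorem ge_iff : Ge e f ↔ Valued.v f ≤ exp (-e) :=
  (LaurentSeries.valuation_le_iff_coeff_lt_eq_zero k).symm

theorem v_mon (i : ℤ) : Valued.v (mon k i) = exp (-i) := LaurentSeries.valuation_single_zpow k i

theorem ge_succ_iff : Ge (e + 1) f ↔ Valued.v f < exp (-e) := by
  rw [ge_iff]
  rcases eq_or_ne (Valued.v f) 0 with h | h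
  · simp [h, exp_pos]
  · rw [← exp_log h, exp_le_exp, exp_lt_exp]
    omega

theorem exp_sum' {ι : Type*} (s : Finset ι) (n : ι → ℤ) :
    exp (∑ i ∈ s, n i) = ∏ i ∈ s, exp (n i) := by
  classical
  induction s using Finset.induction_on with
  | empty => simp
  | insert a s ha ih => rw [sum_insert ha, prod_insert ha, exp_add, ih]

theorem mon_mul (a i : ℤ) : mon k (a * i) = mon k a ^ i := by
  rw [mon, mon, RatFunc.single_zpow, RatFunc.single_zpow a, zpow_mul]

theorem mon_ne (i : ℤ) : mon k i ≠ 0 := fun h =>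
  exp_ne_zero (by rw [← v_mon (k := k), h, map_zero])

/-- the ring homomorphism of a substitution -/
def IsSub.hom (h : IsSub σ) : Ls k →+* Ls k :=
  ⟨⟨⟨σ, h.map_one⟩, h.map_mul⟩, σ.map_zero, σ.map_add⟩

theorem IsSub.zpow (h : IsSub σ) (f : Ls k) (i : ℤ) : σ (f ^ i) = σ f ^ i := map_zpow₀ h.hom f i

theorem IsSub.v_one (h : IsSub σ) : Valued.v (σ (mon k 1)) = exp (-1) := by
  rw [← v_mon (k := k)]
  exact Valuation.map_eq_of_sub_lt _ (by rw [v_mon]; exact ge_succ_iff.1 h.one)

variable {p : ℕ} [hp : Fact p.Prime] [CharP k p]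

theorem charP_Ls : CharP (Ls k) p :=
  charP_of_injective_ringHom (HahnSeries.C (Γ := ℤ) (R := k)).injective p

/-- the jump on `u ^ (p + 1)` -/
theorem v_jump (h : IsSub σ) (h' : IsSub σ') :
    Valued.v (σ (mon k (p + 1)) - σ' (mon k (p + 1))) =
      Valued.v (σ (mon k 1) - σ' (mon k 1)) * exp (-p : ℤ) := by
  haveI := charP_Ls (k := k) (p := p)
  have e : mon k (p + 1) = mon k 1 ^ ((p + 1 : ℕ) : ℤ) := by rw [← mon_mul]; simp
  have h2 : Valued.v (σ (mon k 1) - σ' (mon k 1)) ≤ exp (-2) :=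
    ge_iff.1 (by simpa using h.one.sub h'.one)
  have h3 := h.v_one
  have h4 := h'.v_one
  rw [e, h.zpow, h'.zpow, zpow_natCast, zpow_natCast]
  generalize σ (mon k 1) = a at *
  generalize σ' (mon k 1) = b at *
  obtain ⟨n, hn⟩ : ∃ n, p = n + 1 + 1 := ⟨p - 2, by have := hp.out.two_le; omega⟩
  have h5 : a ^ (p + 1) - b ^ (p + 1) = (a - b) * (a ^ p + (a - b) ^ (n + 1) * b) := by
    rw [mul_add, ← mul_assoc, ← pow_succ', ← hn, sub_pow_char]
    ring
  have h6 : Valued.v (a ^ p) = exp (-p : ℤ) := by rw [map_pow, h3, ← exp_nsmul]; simp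
  rw [h5, map_mul, Valuation.map_add_eq_of_lt_left, h6]
  rw [h6, map_mul, map_pow, h4]
  refine (mul_le_mul_left (pow_le_pow_left' h2 _) _).trans_lt ?_
  rw [← exp_nsmul, ← exp_add, exp_lt_exp, hn]
  simp only [nsmul_eq_mul]
  push_cast
  omega

theorem isSub_id : IsSub (LinearMap.id : Ls k →ₗ[k] Ls k) :=
  ⟨rfl, fun _ _ => rfl, fun _ _ h => h, by simpa using Ge.zero 2⟩

theorem IsSub.ge_y (h : IsSub σ) : Ge (p + 2) (σ (mon k (p + 1)) - mon k (p + 1)) := by
  refine ge_iff.2 ((v_jump h isSub_id).trans_le ?_)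
  refine (mul_le_mul_left (ge_iff.1 h.one) _).trans_eq ?_
  rw [← exp_add]
  congr 1
  ring

theorem opS_apply {ι : Type} (s : Finset ι) (a : ι → Ls k) (σ : ι → Ls k →ₗ[k] Ls k) (f : Ls k) :
    opS s a σ f = ∑ l ∈ s, a l * σ l f := by
  simp [opS, mulL]

theorem Ge.pow (h : Ge e f) (n : ℕ) : Ge (n * e) (f ^ n) := by
  rw [ge_iff] at h ⊢
  rw [map_pow]
  refine (pow_le_pow_left' h n).trans_eq ?_
  rw [← exp_nsmul]
  simp

theorem per_opS : PerStmt := by
  intro p hp k _ _ ι s a σ hσ ha M e e' f g hf hg H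
  haveI := charP_Ls (k := k) (p := p)
  have e1 : inc p k (mon k (p ^ M)) = mon k (p + 1) ^ p ^ M := by
    rw [inc_mon, mon_mul, ← Nat.cast_pow, zpow_natCast]
  rw [bil_apply, bil_apply, ← sub_eq_zero, ← HahnSeries.coeff_sub, (inc p k).map_mul,
    (inc p k).map_mul, e1, opS_apply,
    opS_apply, sum_mul, sum_mul, ← sum_sub_distrib]
  refine Ge.sum (e := 0 + (p ^ M : ℕ) * (p + 2) + (p + 1) * e + (p + 1) * e') (fun l _ => ?_) _ ?_
  · convert (((ha l).mul ((hσ l).ge_y.pow (p ^ M))).mul ((hσ l).cont _ _ (hf.inc p))).mul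
      (hg.inc p) using 1
    rw [(hσ l).map_mul, sub_pow_char_pow, ← zpow_natCast (mon k (p + 1)), (hσ l).zpow, zpow_natCast]
    ring
  · have h1 : (p + 1) * rr p M ≤ p ^ M + p := Nat.mul_div_le _ _
    have h2 : ((p : ℤ) + 1) * 2 ≤ (p + 1) * (e + e' + p ^ M + rr p M) :=
      mul_le_mul_of_nonneg_left (by omega) (by positivity)
    zify at h1
    push_cast
    nlinarith

theorem dd : DDStmt := by
  intro p hp k _ _ σ cost hN j d
  obtain ⟨J, hJ, hc⟩ := hN.jump
  set y := mon k (p + 1) with hy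
  have y0 : y ≠ 0 := mon_ne _
  let ε : ℕ → Ls k := fun l => (σ l y - y) / y
  have vy : Valued.v y = exp (-(p + 1 : ℤ)) := v_mon _
  have h1 : ∀ l, Valued.v (ε l) < 1 := fun l => by
    rw [map_div₀, div_lt_one₀ (by simp [vy, exp_pos]), vy]
    exact ge_succ_iff.1 (by simpa [add_assoc] using (hN.sub l).ge_y (p := p))
  have h2 : ∀ i l, i ≠ l → exp (-J i l : ℤ) ≤ Valued.v (ε i - ε l) := fun i l h => by
    have := hJ i l h
    rw [show (J i l : ℤ) + 2 = J i l + 1 + 1 by ring, ge_succ_iff, not_lt] at this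
    rw [← sub_div, sub_sub_sub_cancel_right, map_div₀, v_jump (hN.sub i) (hN.sub l), vy,
      le_div_iff₀ exp_pos]
    refine le_trans (le_of_eq ?_) (mul_le_mul_left this _)
    rw [← exp_add, ← exp_add]
    congr 1
    ring
  have h3 : Set.InjOn ε (range (j + 1) : Finset ℕ) := fun i _ l _ e => by
    by_contra h
    simpa [e] using h2 i l h
  let a : ℕ → Ls k := fun l =>
    if l ≤ j then y ^ d / ∏ m ∈ (range (j + 1)).erase l, (ε l - ε m) else 0
  have vyz : ∀ n : ℤ, Valued.v (y ^ n) = exp (-((p + 1) * n)) := fun n => by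
    rw [hy, ← mon_mul, v_mon]
  have h4 : ∀ l, Ge ((p + 1) * d - cost j) (a l) := fun l => by
    by_cases h : l ≤ j
    · have h5 : exp (-cost j : ℤ) ≤ Valued.v (∏ m ∈ (range (j + 1)).erase l, (ε l - ε m)) := by
        rw [map_prod]
        refine le_trans ?_ (prod_le_prod' fun m hm => h2 l m (mem_erase.1 hm).1.symm)
        rw [← exp_sum', exp_le_exp, sum_neg_distrib, neg_le_neg_iff]
        exact_mod_cast hc j l h
      rw [ge_iff, show a l = _ from if_pos h, map_div₀, vyz, div_le_iff₀ (exp_pos.trans_le h5)]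
      refine le_trans (le_of_eq ?_) (mul_le_mul_right h5 _)
      rw [← exp_add]
      congr 1
      ring
    · exact (show a l = _ from if_neg h) ▸ Ge.zero _
  have h6 : ∀ i : ℤ, opS (range (j + 1)) a σ (inc p k (mon k i)) =
      y ^ (d + i) * Dv ε (range (j + 1)) fun l => (1 + ε l) ^ i := fun i => by
    rw [opS_apply, Dv, mul_sum, inc_mon, mon_mul]
    refine sum_congr rfl fun l hl => ?_
    rw [show a l = _ from if_pos (Nat.lt_succ_iff.1 (mem_range.1 hl)), (hN.sub l).zpow, ← hy,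
      show σ l y = y * (1 + ε l) by simp only [ε]; field_simp; ring, mul_zpow, zpow_add₀ y0]
    ring
  have h7 : ∀ i : ℤ, Ge 1 (Dv ε (range (j + 1)) (fun l => (1 + ε l) ^ i) - bn k i j • mon k 0) :=
    fun i => by
      have := Dv_val Valued.v h1 j (card_range _) h3 i
      rw [← exp_zero, ← neg_zero, ← ge_succ_iff, zero_add] at this
      rwa [mon_zero, ← HahnSeries.C_mul_eq_smul, mul_one, bn, map_intCast]
  have h8 : ∀ i : ℤ, Ge 0 (Dv ε (range (j + 1)) fun l => (1 + ε l) ^ i) := fun i => by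
    simpa using ((h7 i).mono zero_le_one).add ((ge_mon 0).smul (bn k i j))
  refine ⟨a, h4, fun e e' f g hf hg H => ?_, fun i => ?_⟩
  · let W : Submodule k (Ls k) :=
      { carrier := {f | Ge ((p + 1) * (e + d)) (opS (range (j + 1)) a σ (inc p k f))}
        add_mem' := fun h h' => by simpa using Ge.add h h'
        zero_mem' := by simpa using Ge.zero _
        smul_mem' := fun c _ h => by simpa [inc_smul] using Ge.smul h c }
    have : f ∈ W := mem_of W (e + cost j) f (fun g hg _ => ?_) fun i hi => ?_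
    · refine (Ge.mul this (hg.inc p)) _ ?_
      have : ((p : ℤ) + 1) * 2 ≤ (p + 1) * (e + e' + d) :=
        mul_le_mul_of_nonneg_left (by omega) (by positivity)
      nlinarith
    · change Ge _ _
      rw [opS_apply]
      refine Ge.sum fun l _ => ((h4 l).mul ((hN.sub l).cont _ _ (hg.inc p))).mono ?_
      nlinarith [show (0 : ℤ) ≤ p * cost j by positivity]
    · change Ge _ _
      have h9 : e ≤ i := not_lt.1 fun c => hi (hf i c)
      rw [h6, hy, ← mon_mul]
      refine ((ge_mon _).mul (h8 i)).mono ?_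
      nlinarith [mul_le_mul_of_nonneg_left h9 (show (0 : ℤ) ≤ p + 1 by positivity)]
  · rw [bil_apply, h6, inc_mon, mul_right_comm, hy, ← mon_mul, ← mon_add,
      show (p + 1 : ℤ) * (d + i) + (p + 1) * (1 - d - i) = p + 1 by ring]
    have := h7 i 0 one_pos
    rw [HahnSeries.coeff_sub, sub_eq_zero] at this
    simpa [coeff_mon] using (coeff_mon_mul (p + 1) 0 _).trans this

end Vale.Agent.P221X.EX
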