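import Vale.Agent.P221X.EX.Lucas

/-!
# P221X, block EX: definitions and statements

`Ls k` is the field of Laurent series.  An operator `A` on `k((t))` is handled through the bilinear
form `(f, g) ↦ coefficient of t ^ 1 in (A f) * g`; the transpose is the flipped form.
-/

set_option linter.all false

noncomputable section

namespace Vale.Agent.P221X.EX

open Finset

/-- Laurent series -/
abbrev Ls (k : Type) [Field k] : Type := LaurentSeries k

/-- bilinear forms -/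
abbrev Bl (k : Type) [Field k] : Type := Ls k →ₗ[k] Ls k →ₗ[k] k

variable {k : Type} [Field k]

/-- valuation at least `e` -/
def Ge (e : ℤ) (f : Ls k) : Prop := ∀ n < e, f.coeff n = 0

/-- the monomial `t ^ i` -/
def mon (k : Type) [Field k] (i : ℤ) : Ls k := HahnSeries.single i 1

/-- `f = t ^ v + ` higher terms -/
def Lead (v : ℤ) (f : Ls k) : Prop := Ge v f ∧ f.coeff v = 1

/-- polynomials in `1 / t` -/
def InZ (f : Ls k) : Prop := ∀ n, 0 < n → f.coeff n = 0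

/-- the operator raises valuations by `d` -/
def DegB (β : Bl k) (d : ℤ) : Prop :=
  ∀ e e' f g, Ge e f → Ge e' g → 1 < e + e' + d → β f g = 0

/-- the operator commutes with `t ^ (p ^ M)` up to the degree `rr p M` -/
def PerB (p : ℕ) (β : Bl k) : Prop :=
  ∀ (M : ℕ) e e' f g, Ge e f → Ge e' g → 1 < e + e' + p ^ M + rr p M →
    β (mon k (p ^ M) * f) g = β f (mon k (p ^ M) * g)

/-- the operator keeps the polynomials in `1 / t` -/
def StabB (β : Bl k) : Prop := ∀ z z', InZ z → InZ z' → β z z' = 0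

/-- an infinite family in the kernel, inside `t k[[t]]` -/
def KerFam (β : Bl k) : Prop :=
  ∃ (q : ℕ → Ls k) (v : ℕ → ℤ), StrictMono v ∧ 0 < v 0 ∧ ∀ n, Lead (v n) (q n) ∧ β (q n) = 0

/-- the abstract data: a complete group of operators with control and periodicity -/
structure Fm (p : ℕ) (k : Type) [Field k] (R : Type) [AddCommGroup R] where
  /-- the forms -/
  β : R →+ Bl k
  /-- the filtration -/
  I : ℕ → AddSubgroup R
  anti : Antitone I
  lim : ∀ s : ℕ → R, (∀ n, s n ∈ I n) → ∃ r, ∀ n, r - ∑ i ∈ range n, s i ∈ I n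
  gain : ∀ d : ℤ, ∃ n, ∀ r ∈ I n, DegB (β r) d
  ctl : ∀ d : ℕ, 1 ≤ d → ∀ φ ∈ Pol k (2 * p * d / 3), ∃ s ∈ I d, DegB (β s) d ∧
    ∀ i, β s (mon k i) (mon k (1 - d - i)) = φ i
  per : ∀ r, PerB p (β r)

/-! ### operators on `k((u))`, `t = u ^ (p + 1)` -/

/-- `t ↦ u ^ (p + 1)` -/
def inc (p : ℕ) (k : Type) [Field k] : Ls k →+* Ls k :=
  HahnSeries.embDomainRingHom (AddMonoidHom.mulLeft ((p : ℤ) + 1))
    (mul_right_injective₀ (by positivity)) fun _ _ => Int.mul_le_mul_left (by positivity)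

theorem inc_smul (p : ℕ) (c : k) (f : Ls k) : inc p k (c • f) = c • inc p k f :=
  HahnSeries.embDomain_smul _ _ _

theorem smul_mul' (c : k) (f g : Ls k) : c • f * g = c • (f * g) := by
  rw [← HahnSeries.C_mul_eq_smul, ← HahnSeries.C_mul_eq_smul, mul_assoc]

theorem mul_smul' (c : k) (f g : Ls k) : f * c • g = c • (f * g) := by
  rw [mul_comm, smul_mul', mul_comm]

/-- multiplication -/
def mulL (a : Ls k) : Ls k →ₗ[k] Ls k where
  toFun f := a * f
  map_add' := mul_add a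
  map_smul' c f := mul_smul' c a f

/-- the form of an operator on `k((u))` -/
def bil (p : ℕ) : (Ls k →ₗ[k] Ls k) →+ Bl k where
  toFun A := LinearMap.mk₂ k (fun f g => (A (inc p k f) * inc p k g).coeff (p + 1))
    (fun _ _ _ => by simp [add_mul]) (fun _ _ _ => by simp [inc_smul, smul_mul'])
    (fun _ _ _ => by simp [mul_add]) (fun _ _ _ => by simp [inc_smul, mul_smul'])
  map_zero' := by ext; simp
  map_add' _ _ := by ext; simp [add_mul]

theorem bil_apply (p : ℕ) (A : Ls k →ₗ[k] Ls k) (f g : Ls k) :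
    bil p A f g = (A (inc p k f) * inc p k g).coeff (p + 1) := rfl

/-- a substitution `u ↦ u + O(u ^ 2)` -/
structure IsSub (σ : Ls k →ₗ[k] Ls k) : Prop where
  map_one : σ 1 = 1
  map_mul : ∀ f g, σ (f * g) = σ f * σ g
  cont : ∀ e f, Ge e f → Ge e (σ f)
  one : Ge 2 (σ (mon k 1) - mon k 1)

/-- the operator `∑ a l * σ l` -/
def opS {ι : Type} (s : Finset ι) (a : ι → Ls k) (σ : ι → Ls k →ₗ[k] Ls k) : Ls k →ₗ[k] Ls k :=
  ∑ l ∈ s, mulL (a l) ∘ₗ σ l

/-- nodes with a bound `cost` for the sums of the jumps -/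
structure Nodes (σ : ℕ → Ls k →ₗ[k] Ls k) (cost : ℕ → ℕ) : Prop where
  sub : ∀ l, IsSub (σ l)
  jump : ∃ J : ℕ → ℕ → ℕ, (∀ i l, i ≠ l → ¬ Ge (J i l + 2) (σ i (mon k 1) - σ l (mon k 1))) ∧
    ∀ j, ∀ i ≤ j, ∑ l ∈ (range (j + 1)).erase i, J i l ≤ cost j

/-- divided differences -/
def DDStmt : Prop :=
  ∀ (p : ℕ) [Fact p.Prime] (k : Type) [Field k] [CharP k p] (σ : ℕ → Ls k →ₗ[k] Ls k)
    (cost : ℕ → ℕ), Nodes σ cost → ∀ (j : ℕ) (d : ℤ), ∃ a : ℕ → Ls k,
      (∀ l, Ge ((p + 1) * d - cost j) (a l)) ∧ DegB (bil p (opS (range (j + 1)) a σ)) d ∧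
      ∀ i, bil p (opS (range (j + 1)) a σ) (mon k i) (mon k (1 - d - i)) = bn k i j

/-- periodicity and degree of finite sums -/
def PerStmt : Prop :=
  ∀ (p : ℕ) [Fact p.Prime] (k : Type) [Field k] [CharP k p] (ι : Type) (s : Finset ι)
    (a : ι → Ls k) (σ : ι → Ls k →ₗ[k] Ls k), (∀ l, IsSub (σ l)) → (∀ l, Ge 0 (a l)) →
      PerB p (bil p (opS s a σ))

/-- The concrete data: a group `R` of operators on `k((u))`, complete for a filtration `I`
(think `u ^ n R`), which contains the averages of the finite sums `∑ a l * σ l`. -/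
structure Dat (p : ℕ) (k : Type) [Field k] (R : Type) [AddCommGroup R] where
  /-- the action on `k((u))` -/
  act : R →+ (Ls k →ₗ[k] Ls k)
  /-- the filtration -/
  I : ℕ → AddSubgroup R
  /-- the nodes -/
  σ : ℕ → Ls k →ₗ[k] Ls k
  /-- the cost -/
  cost : ℕ → ℕ
  /-- the gain in the filtration per degree -/
  w : ℕ
  w_pos : 0 < w
  anti : Antitone I
  lim : ∀ s : ℕ → R, (∀ n, s n ∈ I n) → ∃ r, ∀ n, r - ∑ i ∈ range n, s i ∈ I n
  gain : ∀ N : ℤ, ∃ n, ∀ r ∈ I n, ∀ e f, Ge e f → Ge (e + N) (act r f)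
  nodes : Nodes σ cost
  cost_le : ∀ j d, j ≤ 2 * p * d / 3 → cost j + w * d ≤ (p + 1) * d
  fin : ∀ (n j : ℕ) (a : ℕ → Ls k), (∀ l, Ge n (a l)) →
    ∃ r ∈ I n, bil p (act r) = bil p (opS (range j) a σ)

/-- existence of `θ` -/
def ExStmt : Prop :=
  ∀ (p : ℕ) [Fact p.Prime] (k : Type) [Field k] [CharP k p] (R : Type) [AddCommGroup R]
    (D : Dat p k R) (θ₀ : R), 5 ≤ p → PerB p (bil p (D.act θ₀)) → DegB (bil p (D.act θ₀)) 1 →
      bil p (D.act θ₀) 1 1 = 0 → ∃ θ, θ - θ₀ ∈ D.I (2 * D.w) ∧ DegB (bil p (D.act θ)) 1 ∧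
        StabB (bil p (D.act θ)) ∧ KerFam (bil p (D.act θ)) ∧ KerFam (bil p (D.act θ)).flip

/-- every block `Z → Q` is realised -/
def SurjStmt : Prop :=
  ∀ (p : ℕ) [Fact p.Prime] (k : Type) [Field k] [CharP k p] (R : Type) [AddCommGroup R]
    (D : Dat p k R), 5 ≤ p → ∀ y : ℕ → ℕ → k, ∃ s ∈ D.I D.w, DegB (bil p (D.act s)) 1 ∧
      ∀ m m' : ℕ, bil p (D.act s) (mon k (-m)) (mon k (-m')) = y m m'

end Vale.Agent.P221X.EX
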