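import Vale.Agent.P221X.EX.Tri

/-!
# P221X, block EX: the limit
-/

set_option linter.all false

noncomputable section

namespace Vale.Agent.P221X.EX

open Finset

variable {p : ℕ} {k : Type} [Field k] {R : Type} [AddCommGroup R] (C : Fm p k R)

/-- a state of the construction -/
structure St where
  /-- the operator -/
  θ : R
  /-- the bound -/
  V : ℕ
  /-- the sources -/
  F : ℤ → Ls k
  /-- the targets -/
  G : ℤ → Ls k
  deg : DegB (C.β θ) 1
  stab : StabB (C.β θ)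
  hF : Fam F
  hG : Fam G

variable {C}

/-- the old families are kept -/
def St.Le (x y : St C) (n : ℕ) : Prop :=
  y.θ - x.θ ∈ C.J n ∧ x.V ≤ y.V ∧ ∀ i : ℤ, 0 < i → i ≤ x.V → y.F i = x.F i ∧ y.G i = x.G i ∧
    C.β (y.θ - x.θ) (x.F i) = 0 ∧ (C.β (y.θ - x.θ)).flip (x.G i) = 0

theorem St.Le.trans {x y z : St C} {n : ℕ} (h : x.Le y n) (h' : y.Le z n) : x.Le z n := by
  have e : z.θ - x.θ = (z.θ - y.θ) + (y.θ - x.θ) := by abel
  refine ⟨e ▸ add_mem h'.1 h.1, h.2.1.trans h'.2.1, fun i i0 i1 => ?_⟩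
  obtain ⟨a1, a2, a3, a4⟩ := h.2.2 i i0 i1
  obtain ⟨b1, b2, b3, b4⟩ := h'.2.2 i i0 (i1.trans (by exact_mod_cast h.2.1))
  rw [a1] at b3
  rw [a2] at b4
  refine ⟨b1.trans a1, b2.trans a2, by rw [e, map_add, LinearMap.add_apply, a3, b3, add_zero], ?_⟩
  ext g
  have a5 := LinearMap.congr_fun a4 g
  have b5 := LinearMap.congr_fun b4 g
  simp only [LinearMap.flip_apply, LinearMap.zero_apply] at a5 b5 ⊢
  rw [e, map_add, LinearMap.add_apply, LinearMap.add_apply, a5, b5, add_zero]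

theorem St.Le.mono {x y : St C} {n m : ℕ} (h : x.Le y n) (c : m ≤ n) : x.Le y m :=
  ⟨C.J_anti c h.1, h.2⟩

theorem StabB.add {β γ : Bl k} (h : StabB β) (h' : StabB γ) : StabB (β + γ) := fun z z' a b => by
  simp [h z z' a b, h' z z' a b]

variable [hp : Fact p.Prime] [CharP k p]

theorem St.stepF (h5 : 5 ≤ p) (x : St C) (n : ℕ) :
    ∃ y : St C, x.Le y (n + 1) ∧ x.V < y.V ∧ C.β y.θ (y.F y.V) = 0 := by
  obtain ⟨s, s1, v, f, h1, h2, h3, h4, h6⟩ := C.step h5 x.deg x.stab x.hF x.hG x.V n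
  refine ⟨⟨x.θ + s, v, Function.update x.F v f, x.G,
    by rw [map_add]; exact x.deg.add (s1.2.mono (by omega)), by rw [map_add]; exact x.stab.add h4,
    x.hF.update (by omega) h2, x.hG⟩, ⟨by simpa using s1, h1.le, fun i i0 i1 =>
      ⟨Function.update_of_ne (by omega) _ _, rfl, ?_⟩⟩, h1, by simpa using h3⟩
  simpa using h6 i i0 i1

theorem St.stepG (h5 : 5 ≤ p) (x : St C) (n : ℕ) :
    ∃ y : St C, x.Le y (n + 1) ∧ x.V < y.V ∧ (C.β y.θ).flip (y.G y.V) = 0 := by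
  obtain ⟨s, s1, v, f, h1, h2, h3, h4, h6⟩ :=
    C.flip.step h5 (θ := x.θ) x.deg.flip x.stab.flip x.hG x.hF x.V n
  have s2 := C.flip_J _ s1
  refine ⟨⟨x.θ + s, v, x.F, Function.update x.G v f,
    by rw [map_add]; exact x.deg.add (s2.2.mono (by omega)),
    by rw [map_add]; exact x.stab.add h4.flip, x.hF, x.hG.update (by omega) h2⟩,
    ⟨by simpa using s2, h1.le, fun i i0 i1 => ⟨rfl, Function.update_of_ne (by omega) _ _, ?_⟩⟩, h1,
      ?_⟩
  · rw [add_sub_cancel_left]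
    exact (h6 i i0 i1).symm
  · exact (congrArg _ (Function.update_self _ _ _)).trans h3

theorem St.step (h5 : 5 ≤ p) (x : St C) (n : ℕ) : ∃ y : St C, x.Le y (n + 1) ∧
    (∃ v : ℕ, x.V < v ∧ v ≤ y.V ∧ C.β y.θ (y.F v) = 0) ∧
      ∃ v : ℕ, x.V < v ∧ v ≤ y.V ∧ (C.β y.θ).flip (y.G v) = 0 := by
  obtain ⟨y, y1, y2, y3⟩ := x.stepF h5 n
  obtain ⟨z, z1, z2, z3⟩ := y.stepG h5 n
  obtain ⟨a1, -, a3, -⟩ := z1.2.2 y.V (by omega) le_rfl
  refine ⟨z, y1.trans z1, ⟨y.V, y2, z2.le, ?_⟩, z.V, y2.trans z2, le_rfl, z3⟩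
  rw [map_sub, LinearMap.sub_apply, y3, sub_zero] at a3
  rw [a1, a3]

theorem St.ex (h5 : 5 ≤ p) (x : St C) (d0 : ℕ) : ∃ θ, θ - x.θ ∈ C.J (d0 + 1) ∧ StabB (C.β θ) ∧
    KerFam (C.β θ) ∧ KerFam (C.β θ).flip := by
  choose nx h1 h2 h3 using fun (x : St C) n => x.step h5 n
  let S : ℕ → St C := fun n => Nat.rec x (fun n y => nx y (d0 + n)) n
  have s1 : ∀ n, (S n).Le (S (n + 1)) (d0 + 1 + n) := fun n => (h1 (S n) (d0 + n)).mono (by omega)
  have s2 : ∀ n m, (S n).Le (S (n + 1 + m)) 0 := fun n m => by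
    induction m with
    | zero => exact (s1 n).mono (by omega)
    | succ m ih => exact ih.trans ((s1 _).mono (by omega))
  obtain ⟨r, hr⟩ := C.lim' (fun n => (S (n + 1)).θ - (S n).θ) (d0 + 1) fun n => (s1 n).1
  simp only [sum_range_sub fun n => (S n).θ] at hr
  have lim : ∀ n f g, (∀ m, C.β (S (n + m)).θ f g = 0) → C.β (x.θ + r) f g = 0 := fun n f g h => by
    obtain ⟨e, he⟩ := exists_ge f
    obtain ⟨e', he'⟩ := exists_ge g
    have := (hr (n + (1 - e - e').toNat)).2 _ _ _ _ he he' (by omega)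
    rw [show r - ((S (n + (1 - e - e').toNat)).θ - (S 0).θ) = x.θ + r - (S (n + (1 - e - e').toNat)).θ by
      change r - (_ - x.θ) = _; abel, map_sub, LinearMap.sub_apply, LinearMap.sub_apply, h] at this
    rwa [sub_zero] at this
  choose v v1 v2 v3 using fun n => h2 (S n) (d0 + n)
  choose w w1 w2 w3 using fun n => h3 (S n) (d0 + n)
  refine ⟨x.θ + r, by simpa using hr 0, fun z z' a b => lim 0 _ _ fun m => (S _).stab z z' a b,
    ⟨fun n => (S (n + 1)).F (v n), fun n => v n, strictMono_nat_of_lt_succ fun n =>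
      Int.ofNat_lt.2 ((v2 n).trans_lt (v1 (n + 1))), Int.ofNat_lt.2 ((Nat.zero_le _).trans_lt (v1 0)),
      fun n => ⟨(S (n + 1)).hF.1 _, LinearMap.ext fun g => lim (n + 2) _ _ fun m => ?_⟩⟩,
    ⟨fun n => (S (n + 1)).G (w n), fun n => w n, strictMono_nat_of_lt_succ fun n =>
      Int.ofNat_lt.2 ((w2 n).trans_lt (w1 (n + 1))), Int.ofNat_lt.2 ((Nat.zero_le _).trans_lt (w1 0)),
      fun n => ⟨(S (n + 1)).hG.1 _, LinearMap.ext fun g => lim (n + 2) _ _ fun m => ?_⟩⟩⟩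
  · have := ((s2 (n + 1) m).2.2 (v n) (by have := v1 n; omega) (Int.ofNat_le.2 (v2 n))).2.2.1
    rw [map_sub, LinearMap.sub_apply, sub_eq_zero] at this
    exact LinearMap.congr_fun (this.trans (v3 n)) g
  · have := LinearMap.congr_fun
      ((s2 (n + 1) m).2.2 (w n) (by have := w1 n; omega) (Int.ofNat_le.2 (w2 n))).2.2.2 g
    rw [LinearMap.flip_apply, map_sub, LinearMap.sub_apply, LinearMap.sub_apply, LinearMap.zero_apply,
      sub_eq_zero] at this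
    exact this.trans (LinearMap.congr_fun (w3 n) g)

variable (C)

/-- **Existence** for the abstract data -/
theorem Fm.ex (h5 : 5 ≤ p) {θ₀ : R} (hd : DegB (C.β θ₀) 1) (h1 : C.β θ₀ 1 1 = 0) :
    ∃ θ, θ - θ₀ ∈ C.J 2 ∧ StabB (C.β θ) ∧ KerFam (C.β θ) ∧ KerFam (C.β θ).flip := by
  obtain ⟨s, s1, s2⟩ := C.surj h5 (fun m m' => -C.β θ₀ (mon k (-m)) (mon k (-m'))) (d0 := 2)
    (by omega) fun m m' h => by
      obtain ⟨rfl, rfl⟩ : m = 0 ∧ m' = 0 := by omega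
      exact neg_eq_zero.2 h1
  obtain ⟨θ, t1, t2⟩ := St.ex h5 (C := C) ⟨θ₀ + s, 0, mon k, mon k,
    by rw [map_add]; exact hd.add (s1.2.mono (by omega)), stab_of fun m m' => by simp [s2],
    fam_mon, fam_mon⟩ 1
  refine ⟨θ, ?_, t2⟩
  rw [show θ - θ₀ = θ - (θ₀ + s) + s by abel]
  exact add_mem t1 s1

end Vale.Agent.P221X.EX
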