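import Vale.Agent.P221X.EX.Count

/-!
# P221X, block EX: flags, towers of an operator, the counting lemma for sources and targets
-/

set_option linter.all false

namespace Vale.Agent.P221X.EX

variable {k T : Type*} [Field k] [AddCommGroup T] [Module k T]

/-- a decreasing filtration with graded pieces of dimension one -/
structure Fl (F : ℤ → Submodule k T) : Prop where
  anti : ∀ n, F (n + 1) ≤ F n
  ex : ∀ n, ∃ t ∈ F n, t ∉ F (n + 1)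
  one : ∀ n, ∀ x ∈ F n, ∀ x' ∈ F n, x' ∉ F (n + 1) → ∃ a : k, x - a • x' ∈ F (n + 1)

/-- there is an `f` of valuation `v` with `θ f` of valuation at least `v + l` -/
def Len (F : ℤ → Submodule k T) (θ : T →ₗ[k] T) (v : ℤ) (l : ℕ) : Prop :=
  ∃ f ∈ F v, f ∉ F (v + 1) ∧ θ f ∈ F (v + l)

/-- `y` shifts the valuation by `c` and commutes with `θ` up to the relative degree `r` -/
structure Sh (F : ℤ → Submodule k T) (θ y : T →ₗ[k] T) (c : ℤ) (r : ℕ) : Prop where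
  iff : ∀ v f, y f ∈ F (v + c) ↔ f ∈ F v
  com : ∀ v, ∀ f ∈ F v, θ (y f) - y (θ f) ∈ F (v + c + r)

variable {F : ℤ → Submodule k T} {θ y y' : T →ₗ[k] T}

theorem Fl.le (h : Fl F) {m n : ℤ} (e : m ≤ n) : F n ≤ F m :=
  antitone_int_of_succ_le h.anti e

theorem Fl.tw (h : Fl F) (h0 : ∀ v, ∀ f ∈ F v, θ f ∈ F v) {f0 : T} (m0 : f0 ∈ F 0) (m1 : f0 ∉ F 1)
    (e0 : θ f0 = 0) : Tw (Len F θ) where
  zero v := let ⟨t, ht, ht'⟩ := h.ex v; ⟨t, ht, ht', by simpa using h0 v t ht⟩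
  mono v l := fun ⟨f, h1, h2, h3⟩ => ⟨f, h1, h2, h.le (by omega) h3⟩
  top l := ⟨f0, m0, by simpa using m1, e0 ▸ zero_mem _⟩
  inj := by
    have key : ∀ v v' (l l' : ℕ), Len F θ v l → ¬ Len F θ v (l + 1) → Len F θ v' l' →
        ¬ Len F θ v' (l' + 1) → v + l = v' + l' → ¬ v < v' := by
      rintro v v' l l' ⟨f, h1, h2, h3⟩ n ⟨f', h1', h2', h3'⟩ n' e hv
      obtain ⟨a, ha⟩ := h.one _ _ h3 _ (e ▸ h3') fun h4 =>
        n' ⟨f', h1', h2', by rwa [e, add_assoc] at h4⟩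
      have h4 : a • f' ∈ F (v + 1) := Submodule.smul_mem _ _ (h.le hv h1')
      refine n ⟨f - a • f', sub_mem h1 (h.anti _ h4), fun h5 => h2 ?_, ?_⟩
      · simpa using add_mem h5 h4
      · rwa [map_sub, map_smul, Nat.cast_add_one, ← add_assoc]
    exact fun v v' l l' a b c d e => le_antisymm (not_lt.1 (key v' v l' l c d a b e.symm))
      (not_lt.1 (key v v' l l' a b c d e))

theorem Sh.len (h : Fl F) {c : ℤ} {r : ℕ} (s : Sh F θ y c r) {v : ℤ} {l : ℕ} (hl : l ≤ r) :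
    Len F θ v l → Len F θ (v + c) l := fun ⟨f, h1, h2, h3⟩ =>
  ⟨y f, (s.iff v f).2 h1, fun h4 => h2 ((s.iff _ f).1 (by rwa [add_right_comm])), by
    rw [← sub_add_cancel (θ (y f)) (y (θ f))]
    exact add_mem (h.le (show v + c + l ≤ v + c + r by omega) (s.com v f h1))
      (add_right_comm v l c ▸ (s.iff _ _).2 h3)⟩

theorem Fl.per (h : Fl F) {P r : ℕ} (s : Sh F θ y P r) (s' : Sh F θ y' (-P) r) :
    Per (Len F θ) P r := fun v l hl =>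
  ⟨fun H => by simpa using s'.len h hl H, s.len h hl⟩

/-- **Counting lemma** for the sources -/
theorem Fl.count (h : Fl F) (h0 : ∀ v, ∀ f ∈ F v, θ f ∈ F v) {f0 : T} (m0 : f0 ∈ F 0)
    (m1 : f0 ∉ F 1) (e0 : θ f0 = 0) {p : ℕ} (hp : 5 ≤ p)
    (per : ∀ M, ∃ y y', Sh F θ y (p ^ M) (rr p M) ∧ Sh F θ y' (-p ^ M) (rr p M)) (V M0 : ℕ) :
    ∃ M ≥ M0, ∃ a : ℤ, -V ≤ a ∧ a < p ^ M - V ∧ ∃ l, (l = XX p M ∨ (XX p M ≤ a ∧ l = rr p M)) ∧
      ∃ f ∈ F (p ^ M - a), f ∉ F (p ^ M - a + 1) ∧ θ f ∈ F (p ^ M - a + l) := by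
  obtain ⟨M, hM, a, h1, h2, h3⟩ := (h.tw h0 m0 m1 e0).count_pow hp (fun M => by
    obtain ⟨y, y', s, s'⟩ := per M
    exact h.per (by simpa using s) (by simpa using s')) V M0
  refine ⟨M, hM, a, h1, h2, ?_⟩
  rcases h3 with h3 | h3
  · exact ⟨_, .inl rfl, h3⟩
  · exact ⟨_, .inr ⟨h3.1, rfl⟩, h3.2⟩

/-! ### functionals -/

/-- the dual flag -/
def dF (F : ℤ → Submodule k T) (c : ℤ) (v : ℤ) : Submodule k (Module.Dual k T) :=
  (F (c - v)).dualAnnihilator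

theorem mem_dF {c v : ℤ} {l : Module.Dual k T} : l ∈ dF F c v ↔ ∀ f ∈ F (c - v), l f = 0 :=
  Submodule.mem_dualAnnihilator l

theorem Fl.kill (h : Fl F) {n : ℤ} {t : T} (ht : t ∈ F n) (ht' : t ∉ F (n + 1))
    {l : Module.Dual k T} (h1 : ∀ f ∈ F (n + 1), l f = 0) (h2 : l t = 0) : ∀ f ∈ F n, l f = 0 :=
  fun f hf => by
    obtain ⟨a, ha⟩ := h.one n f hf t ht ht'
    simpa [h2] using h1 _ ha

theorem Fl.dual (h : Fl F) (c : ℤ) : Fl (dF F c) where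
  anti n := Submodule.dualAnnihilator_anti (h.le (by omega))
  ex n := by
    obtain ⟨t, ht, ht'⟩ := h.ex (c - (n + 1))
    obtain ⟨l, h1, h2⟩ := (F (c - (n + 1) + 1)).exists_dual_map_eq_bot_of_notMem ht' inferInstance
    refine ⟨l, mem_dF.2 fun f hf => ?_, fun h3 => h1 (mem_dF.1 h3 t ht)⟩
    exact (Submodule.eq_bot_iff _).1 h2 _ ⟨f, by rwa [show c - (n + 1) + 1 = c - n by ring], rfl⟩
  one n l hl l' hl' hn := by
    obtain ⟨t, ht, ht'⟩ := h.ex (c - (n + 1))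
    have e : c - (n + 1) + 1 = c - n := by ring
    have h1 : l' t ≠ 0 := fun h2 => hn (mem_dF.2 (h.kill ht ht' (e ▸ mem_dF.1 hl') h2))
    refine ⟨l t / l' t, mem_dF.2 (h.kill ht ht' (fun f hf => ?_) ?_)⟩
    · rw [e] at hf
      simp [mem_dF.1 hl f hf, mem_dF.1 hl' f hf]
    · simp [div_mul_cancel₀ _ h1]

theorem Sh.dual {c' : ℤ} {r : ℕ} (s : Sh F θ y c' r) (hy : Function.Surjective y) (c : ℤ) :
    Sh (dF F c) θ.dualMap y.dualMap c' r where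
  iff v l := by
    simp only [mem_dF, LinearMap.dualMap_apply]
    have e : c - v = c - (v + c') + c' := by ring
    refine ⟨fun H f hf => ?_, fun H f hf => H _ (e ▸ (s.iff _ f).2 hf)⟩
    obtain ⟨g, rfl⟩ := hy f
    exact H g ((s.iff _ g).1 (e ▸ hf))
  com v l hl := mem_dF.2 fun f hf => by
    have e : c - v = c - (v + c' + r) + c' + r := by ring
    have := mem_dF.1 hl _ (e ▸ s.com _ f hf : θ (y f) - y (θ f) ∈ F (c - v))
    rw [map_sub, sub_eq_zero] at this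
    simp [this]

/-- **Counting lemma** for the targets: `l` has the leading position `c - 1 - (p ^ M - a)` -/
theorem Fl.count' (h : Fl F) (h0 : ∀ v, ∀ f ∈ F v, θ f ∈ F v) {c : ℤ} {l0 : Module.Dual k T}
    (m0 : ∀ f ∈ F c, l0 f = 0) (m1 : ∃ f ∈ F (c - 1), l0 f ≠ 0) (e0 : ∀ f, l0 (θ f) = 0) {p : ℕ}
    (hp : 5 ≤ p) (per : ∀ M, ∃ y y', Sh F θ y (p ^ M) (rr p M) ∧ Sh F θ y' (-p ^ M) (rr p M) ∧
      Function.Surjective y ∧ Function.Surjective y') (V M0 : ℕ) :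
    ∃ M ≥ M0, ∃ a : ℤ, -V ≤ a ∧ a < p ^ M - V ∧ ∃ d, (d = XX p M ∨ (XX p M ≤ a ∧ d = rr p M)) ∧
      ∃ l : Module.Dual k T, (∀ f ∈ F (c - (p ^ M - a)), l f = 0) ∧
        (∃ f ∈ F (c - (p ^ M - a) - 1), l f ≠ 0) ∧
        ∀ f ∈ F (c - (p ^ M - a) - d), l (θ f) = 0 := by
  obtain ⟨M, hM, a, h1, h2, d, hd, l, h3, h4, h5⟩ := (h.dual c).count (θ := θ.dualMap) (f0 := l0)
    (fun v l hl => mem_dF.2 fun f hf => mem_dF.1 hl _ (h0 _ f hf)) (mem_dF.2 (by simpa using m0))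
    (fun h1 => let ⟨f, hf, h2⟩ := m1; h2 (mem_dF.1 h1 f hf)) (LinearMap.ext e0) hp (fun M =>
      let ⟨y, y', s, s', hy, hy'⟩ := per M; ⟨_, _, s.dual hy c, s'.dual hy' c⟩) V M0
  refine ⟨M, hM, a, h1, h2, d, hd, l, mem_dF.1 h3, ?_, fun f hf => mem_dF.1 h5 f ?_⟩
  · by_contra! H
    exact h4 (mem_dF.2 fun f hf => H f (by rwa [sub_sub]))
  · rwa [← sub_sub]

end Vale.Agent.P221X.EX
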