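import Vale.Agent.P221X.EX.Ex

/-!
# P221X, block EX: from the concrete data to the abstract data
-/

set_option linter.all false

noncomputable section

namespace Vale.Agent.P221X.EX

open Finset

variable {p : ℕ} {k : Type} [Field k] {R : Type} [AddCommGroup R] {β γ : Bl k}

theorem PerB.zero : PerB p (0 : Bl k) := fun _ _ _ _ _ _ _ _ => rfl

theorem PerB.add (h : PerB p β) (h' : PerB p γ) : PerB p (β + γ) := fun M e e' f g a b c => by
  simp [h M e e' f g a b c, h' M e e' f g a b c]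

theorem PerB.neg (h : PerB p β) : PerB p (-β) := fun M e e' f g a b c => by
  simp [h M e e' f g a b c]

/-- periodicity passes to limits -/
theorem PerB.of_lim (h : ∀ d, ∃ γ, PerB p γ ∧ DegB (β - γ) d) : PerB p β :=
  fun M e e' f g a b c => by
    obtain ⟨γ, h1, h2⟩ := h (rr p M)
    have h3 := h2 _ _ _ _ ((ge_mon (p ^ M)).mul a) b (by omega)
    have h4 := h2 _ _ _ _ a ((ge_mon (p ^ M)).mul b) (by omega)
    simp only [LinearMap.sub_apply, sub_eq_zero] at h3 h4
    rw [h3, h4, h1 M e e' f g a b c]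

variable (D : Dat p k R)

theorem Dat.gain' (d : ℤ) : ∃ n, ∀ r ∈ D.I (D.w * n), DegB (bil p (D.act r)) d :=
  (D.gain ((p + 1) * (d - 1) + 1)).imp fun _ h r hr =>
    degB_bil (h r (D.anti (Nat.le_mul_of_pos_left _ D.w_pos) hr)) (by omega)

/-- the periodic elements -/
def Dat.P : AddSubgroup R where
  carrier := {r | PerB p (bil p (D.act r))}
  zero_mem' := by
    change PerB p _
    rw [map_zero, map_zero]
    exact PerB.zero
  add_mem' h h' := by
    change PerB p _
    rw [map_add, map_add]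
    exact PerB.add h h'
  neg_mem' h := by
    change PerB p _
    rw [map_neg, map_neg]
    exact PerB.neg h

theorem opS_smul {ι : Type} (s : Finset ι) (a : ι → Ls k) (σ : ι → Ls k →ₗ[k] Ls k) (c : k) :
    bil p (opS s (fun l => c • a l) σ) = c • bil p (opS s a σ) := by
  ext f g
  simp [bil_apply, opS, mulL, smul_mul', Finset.sum_mul, HahnSeries.coeff_sum, Finset.mul_sum]

variable [Fact p.Prime] [CharP k p]

theorem Dat.ctl (dd : DDStmt) (ps : PerStmt) (d : ℕ) {φ : ℤ → k} (hφ : φ ∈ Pol k (2 * p * d / 3)) :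
    ∃ s ∈ D.P, s ∈ D.I (D.w * d) ∧ DegB (bil p (D.act s)) d ∧
      ∀ i, bil p (D.act s) (mon k i) (mon k (1 - d - i)) = φ i := by
  have key : ∀ ψ ∈ Pol k (2 * p * d / 3), ∀ c : k, ∃ s ∈ D.P, s ∈ D.I (D.w * d) ∧
      DegB (bil p (D.act s)) d ∧
        ∀ i, bil p (D.act s) (mon k i) (mon k (1 - d - i)) = c * ψ (-i) := fun ψ hψ => by
    induction hψ using Submodule.span_induction with
    | mem _ h =>
      intro c
      obtain ⟨j, hj, rfl⟩ := h
      obtain ⟨a, a1, a2, a3⟩ := dd p k D.σ D.cost D.nodes j d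
      have a4 : ∀ l, Ge (D.w * d : ℕ) (c • a l) := fun l => ((a1 l).mono (by
        have := D.cost_le j d hj
        zify at this
        push_cast
        omega)).smul c
      obtain ⟨r, r1, r2⟩ := D.fin _ (j + 1) _ a4
      refine ⟨r, ?_, r1, ?_, fun i => ?_⟩
      · change PerB p _
        rw [r2]
        exact ps p k _ _ _ _ D.nodes.sub fun l => (a4 l).mono (by positivity)
      · rw [r2, opS_smul]
        exact a2.smul c
      · rw [r2, opS_smul, LinearMap.smul_apply, LinearMap.smul_apply, a3, smul_eq_mul]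
        simp
    | zero => exact fun _ => ⟨0, zero_mem _, zero_mem _, by simpa using DegB.zero _, by simp⟩
    | add _ _ _ _ ih ih' =>
      intro c
      obtain ⟨s, s1, s2, s3, s4⟩ := ih c
      obtain ⟨t, t1, t2, t3, t4⟩ := ih' c
      exact ⟨s + t, add_mem s1 t1, add_mem s2 t2, by rw [map_add, map_add]; exact s3.add t3,
        fun i => by simp [s4, t4, mul_add]⟩
    | smul a _ _ ih => exact fun c => (ih (c * a)).imp fun _ h => by simpa [mul_assoc] using h
  simpa using key _ (Pol.refl hφ 0) 1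

/-- the abstract data -/
def Dat.fm (dd : DDStmt) (ps : PerStmt) : Fm p k D.P where
  β := (bil p).comp (D.act.comp D.P.subtype)
  I n := (D.I (D.w * n)).addSubgroupOf D.P
  anti _ _ h _ hr := D.anti (Nat.mul_le_mul_left _ h) hr
  lim s hs := by
    obtain ⟨r, hr⟩ := D.lim (fun n => s n) fun n => D.anti (Nat.le_mul_of_pos_left _ D.w_pos) (hs n)
    have hr' : ∀ n, r - ∑ i ∈ range n, (s i : R) ∈ D.I (D.w * n) := fun n => by
      have e : r - ∑ i ∈ range n, (s i : R) = (r - ∑ i ∈ range (D.w * n), (s i : R)) +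
          ∑ i ∈ Ico n (D.w * n), (s i : R) := by
        rw [← sum_range_add_sum_Ico _ (Nat.le_mul_of_pos_left n D.w_pos)]
        abel
      rw [e]
      exact add_mem (hr _) (sum_mem fun i hi =>
        D.anti (Nat.mul_le_mul_left _ (mem_Ico.1 hi).1) (hs i))
    refine ⟨⟨r, PerB.of_lim fun d => ?_⟩, fun n => by simpa [AddSubgroup.mem_addSubgroupOf] using hr' n⟩
    obtain ⟨n, hn⟩ := D.gain' d
    refine ⟨_, (sum_mem fun i _ => (s i).2 : ∑ i ∈ range n, (s i : R) ∈ D.P), ?_⟩
    have := hn _ (hr' n)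
    rwa [map_sub, map_sub] at this
  gain d := (D.gain' d).imp fun _ h r hr => h r hr
  ctl d _ _ hφ := let ⟨s, s1, s2⟩ := D.ctl dd ps d hφ; ⟨⟨s, s1⟩, s2⟩
  per r := r.2

theorem ex_of (dd : DDStmt) (ps : PerStmt) : ExStmt := fun p _ k _ _ R _ D θ₀ h5 h1 h2 h3 => by
  obtain ⟨θ, t1, t2⟩ := (D.fm dd ps).ex h5 (θ₀ := ⟨θ₀, h1⟩) h2 h3
  refine ⟨θ, mul_comm D.w 2 ▸ t1.1, ?_, t2⟩
  have : DegB (bil p (D.act θ₀) + bil p (D.act (θ - θ₀))) 1 :=
    h2.add (t1.2.mono (d' := 1) (by omega))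
  rwa [map_sub, map_sub, add_sub_cancel] at this

theorem surj_of (dd : DDStmt) (ps : PerStmt) : SurjStmt := fun p _ k _ _ R _ D h5 y => by
  obtain ⟨s, s1, s2⟩ := (D.fm dd ps).surj h5 y (d0 := 1) le_rfl fun _ _ h => by omega
  exact ⟨s, mul_one D.w ▸ s1.1, s1.2, s2⟩

end Vale.Agent.P221X.EX
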