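import Vale.Agent.P221X.EX.Count

/-!
# P221X, block EX: binomial symbols, Lucas separation, interpolation
-/

set_option linter.all false

namespace Vale.Agent.P221X.EX

open Finset

variable (k : Type*) [Field k]

/-- the binomial coefficient in `k` -/
noncomputable def bn (x : ℤ) (j : ℕ) : k := ((Ring.choose x j : ℤ) : k)

/-- the symbols of degree at most `J` -/
def Pol (J : ℕ) : Submodule k (ℤ → k) := Submodule.span k {φ | ∃ j ≤ J, φ = fun i => bn k (-i) j}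

variable {k}

theorem bn_add (x y : ℤ) (j : ℕ) :
    bn k (x + y) j = ∑ q ∈ antidiagonal j, bn k x q.1 * bn k y q.2 := by
  simp [bn, Ring.add_choose_eq j (Commute.all x y)]

theorem bn_nat (n j : ℕ) : bn k n j = n.choose j := by simp [bn, Ring.choose_natCast]

theorem bn_neg (x : ℤ) (j : ℕ) : bn k (-x) j = (-1) ^ j * bn k (x + j - 1) j := by
  simp [bn, Ring.choose_neg, Int.coe_negOnePow_natCast, Units.smul_def]

theorem bn_zero (x : ℤ) : bn k x 0 = 1 := by simp [bn]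

theorem bn_neg_one (j : ℕ) : bn k (-1) j = (-1) ^ j := by
  rw [bn_neg, add_sub_cancel_left, bn_nat, Nat.choose_self, Nat.cast_one, mul_one]

theorem Pol.mono {J J' : ℕ} (h : J ≤ J') : Pol k J ≤ Pol k J' :=
  Submodule.span_mono fun _ ⟨j, hj, e⟩ => ⟨j, hj.trans h, e⟩

theorem sub_mem_Pol {J j : ℕ} (h : j ≤ J) (c : ℤ) : (fun i => bn k (c - i) j) ∈ Pol k J := by
  have : (fun i => bn k (c - i) j) =
      ∑ q ∈ antidiagonal j, bn k c q.1 • fun i => bn k (-i) q.2 := by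
    funext i
    simp [sub_eq_add_neg, bn_add]
  rw [this]
  exact Submodule.sum_mem _ fun q hq => Submodule.smul_mem _ _
    (Submodule.subset_span ⟨q.2, by have := mem_antidiagonal.1 hq; omega, rfl⟩)

theorem add_mem_Pol {J j : ℕ} (h : j ≤ J) (c : ℤ) : (fun i => bn k (i + c) j) ∈ Pol k J := by
  have : (fun i => bn k (i + c) j) = ((-1) ^ j : k) • fun i => bn k (-c + j - 1 - i) j := by
    funext i
    rw [← neg_neg (i + c), bn_neg, Pi.smul_apply, smul_eq_mul]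
    congr 2
    ring
  rw [this]
  exact Submodule.smul_mem _ _ (sub_mem_Pol h _)

/-- reflections preserve the symbols -/
theorem Pol.refl {J : ℕ} {φ : ℤ → k} (h : φ ∈ Pol k J) (c : ℤ) : (fun i => φ (c - i)) ∈ Pol k J := by
  refine Submodule.span_induction (p := fun φ _ => (fun i => φ (c - i)) ∈ Pol k J) ?_
    (Submodule.zero_mem _) (fun _ _ _ _ => Submodule.add_mem _)
    (fun a _ _ => Submodule.smul_mem _ a) h
  rintro _ ⟨j, hj, rfl⟩
  simpa [sub_eq_add_neg, add_comm] using add_mem_Pol (k := k) hj (-c)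

/-- one more point -/
theorem interp_step {J : ℕ} {S : Set ℤ} {v : ℤ} {ψ : ℤ → k} (hψ : ψ ∈ Pol k J)
    (h0 : ∀ i ∈ S, ψ i = 0) (h1 : ψ v ≠ 0) (H : ∀ f : ℤ → k, ∃ φ ∈ Pol k J, ∀ i ∈ S, φ i = f i)
    (f : ℤ → k) : ∃ φ ∈ Pol k J, (∀ i ∈ S, φ i = f i) ∧ φ v = f v := by
  obtain ⟨φ, hφ, e⟩ := H f
  refine ⟨φ + ((f v - φ v) / ψ v) • ψ, add_mem hφ (Submodule.smul_mem _ _ hψ), fun i hi => ?_, ?_⟩
  · simp [h0 i hi, e i hi]
  · simp [div_mul_cancel₀ _ h1]

theorem bn_eq_zero {c i : ℤ} {j : ℕ} (h : i ≤ c) (h' : c - j < i) : bn k (c - i) j = 0 := by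
  obtain ⟨n, hn⟩ := Int.eq_ofNat_of_zero_le (sub_nonneg.2 h)
  rw [hn, bn_nat, Nat.choose_eq_zero_of_lt (by omega), Nat.cast_zero]

/-- interpolation on an interval -/
theorem interp_Ioc {J n : ℕ} (h : n ≤ J + 1) (c : ℤ) (f : ℤ → k) :
    ∃ φ ∈ Pol k J, ∀ i ∈ Set.Ioc (c - n) c, φ i = f i := by
  induction n generalizing f with
  | zero => exact ⟨0, Submodule.zero_mem _, fun i hi => by simp at hi⟩
  | succ n ih =>
    obtain ⟨φ, hφ, e, e'⟩ := interp_step (v := c - n) (sub_mem_Pol (j := n) (by omega) c)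
      (fun i hi => bn_eq_zero hi.2 hi.1) (by simp [bn_nat]) (ih (by omega)) f
    refine ⟨φ, hφ, fun i hi => ?_⟩
    rcases eq_or_ne i (c - n) with rfl | h1
    · exact e'
    · exact e i ⟨by have := hi.1; push_cast at this; omega, hi.2⟩

theorem interp_Icc {J : ℕ} {b c : ℤ} (h : c - b ≤ J) (f : ℤ → k) :
    ∃ φ ∈ Pol k J, ∀ i ∈ Set.Icc b c, φ i = f i :=
  let ⟨φ, hφ, e⟩ := interp_Ioc le_rfl c f
  ⟨φ, hφ, fun i hi => e i ⟨by have := hi.1; push_cast; omega, hi.2⟩⟩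

variable {p : ℕ} [hp : Fact p.Prime] [CharP k p]

theorem bn_per {K j : ℕ} (h : j < p ^ K) (x : ℤ) : bn k (x + p ^ K) j = bn k x j := by
  rw [bn_add, sum_eq_single (j, 0), bn_zero, mul_one]
  · intro q hq h1
    have h2 := mem_antidiagonal.1 hq
    rw [← Nat.cast_pow, bn_nat, (CharP.cast_eq_zero_iff k p _).2
      (hp.out.dvd_choose_pow (fun e => h1 (Prod.ext (by omega) e)) (by omega)), mul_zero]
  · simp

theorem choose_lucas (n c a : ℕ) : (n.choose (c * p ^ a) : k) = (n / p ^ a).choose c := by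
  induction a generalizing n with
  | zero => simp
  | succ a ih =>
    rw [(CharP.natCast_eq_natCast k p).2 Choose.choose_modEq_choose_mod_mul_choose_div_nat,
      pow_succ, ← mul_assoc, Nat.mul_mod_left, Nat.mul_div_cancel _ hp.out.pos,
      Nat.choose_zero_right, one_mul, ih, Nat.div_div_eq_div_mul, mul_comm]

theorem bn_top {n M : ℕ} (h : n < p ^ M) (c : ℕ) : bn k (n - p ^ M) (c * p ^ M) = (-1) ^ c := by
  have hc : c < p ^ c := Nat.lt_pow_self hp.out.one_lt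
  have h1 : c * p ^ M < p ^ (c + M) := by rw [pow_add]; exact Nat.mul_lt_mul_of_pos_right hc (by omega)
  obtain ⟨m, hm⟩ : ∃ m, p ^ c = m + 1 := ⟨p ^ c - 1, by omega⟩
  have hm' : (p : ℤ) ^ c = m + 1 := by exact_mod_cast hm
  rw [← bn_per h1, ← bn_neg_one, ← bn_per hc, pow_add, hm',
    show (n : ℤ) - p ^ M + (m + 1) * p ^ M = (n + m * p ^ M : ℕ) by push_cast; ring,
    show -1 + ((m : ℤ) + 1) = m by ring, bn_nat, bn_nat, choose_lucas,
    Nat.add_mul_div_right _ _ (by omega), Nat.div_eq_of_lt h, zero_add]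

theorem bn_low {n M j : ℕ} (h : j < p ^ M) : bn k (n - p ^ M) j = n.choose j := by
  rw [← bn_per h, sub_add_cancel, bn_nat]

theorem choose_two {n M : ℕ} (h : n < p ^ (M + 1)) (h' : 2 * p ^ M ≤ n) :
    (n.choose (2 * p ^ M) : k) ≠ 0 := by
  have h0 : 0 < p ^ M := pow_pos hp.out.pos M
  rw [choose_lucas, Ne, CharP.cast_eq_zero_iff k p]
  have h1 : n / p ^ M < p := Nat.div_lt_of_lt_mul (by rwa [← pow_succ])
  have h2 : 2 ≤ n / p ^ M := (Nat.le_div_iff_mul_le h0).2 h'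
  intro e
  have := (hp.out.dvd_factorial).1 (Nat.choose_mul_factorial_mul_factorial h2 ▸
    (e.mul_right _).mul_right _)
  omega

/-- **Lucas separation** -/
theorem sep (h5 : 5 ≤ p) {V M n d : ℕ} (hM : 10 * (V + 1) * p ≤ p ^ M) (hn : n < p ^ M)
    (hd : XX p M ≤ d ∨ (XX p M + V ≤ n ∧ rr p M ≤ d)) :
    ∃ j, d + 2 * V < j ∧ j ≤ 2 * p * d / 3 ∧ bn k (n - p ^ M) j ≠ 0 := by
  obtain _ | M := M
  · simp at hM; nlinarith
  have hq : 10 * (V + 1) ≤ p ^ M := Nat.le_of_mul_le_mul_right (pow_succ p M ▸ hM) hp.out.pos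
  have h1 := le_rr' h5 M
  have h2 : 5 * d ≤ p * d := Nat.mul_le_mul_right _ h5
  have h3 : 5 * p ^ M ≤ p ^ (M + 1) := by rw [pow_succ, mul_comm]; exact Nat.mul_le_mul_left _ h5
  simp only [XX, Nat.add_sub_cancel] at hd
  simp only [Nat.le_div_iff_mul_le three_pos, mul_assoc]
  by_cases h4 : 3 * p ^ M ≤ 2 * d
  · have h6 : p ^ (M + 1) * 3 ≤ 2 * (p * d) := by rw [pow_succ]; nlinarith
    have h7 := Nat.div_add_mod (d + 2 * V) (p ^ (M + 1))
    have h8 := Nat.mod_lt (d + 2 * V) (show 0 < p ^ (M + 1) by omega)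
    have h9 : d + 2 * V < p ^ (M + 1) → (d + 2 * V) / p ^ (M + 1) = 0 := Nat.div_eq_of_lt
    generalize (d + 2 * V) / p ^ (M + 1) = Q at h7 h9
    generalize (d + 2 * V) % p ^ (M + 1) = R at h7 h8
    refine ⟨(Q + 1) * p ^ (M + 1), ?_, ?_, by simp [bn_top hn]⟩
    · rw [add_mul, mul_comm Q]; omega
    · rw [add_mul, mul_comm Q]
      by_cases h10 : d + 2 * V < p ^ (M + 1)
      · rw [h9 h10]; omega
      · omega
  · by_cases h6 : n * 3 ≤ 2 * (p * d)
    · exact ⟨n, by omega, h6, by simp [bn_low hn]⟩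
    · have h7 : 5 * (5 * p ^ M) ≤ 6 * (p * d) := by nlinarith [show 5 * p ^ M ≤ 6 * d by omega]
      refine ⟨2 * p ^ M, by omega, by omega, ?_⟩
      rw [bn_low (by omega)]
      exact choose_two hn (by omega)

/-- **Interpolation** on an interval and one far point -/
theorem interp (h5 : 5 ≤ p) {V M d : ℕ} {a : ℤ} (hM : 10 * (V + 1) * p ≤ p ^ M) (ha : -V ≤ a)
    (ha' : a < p ^ M - V) (hd : XX p M ≤ d ∨ (XX p M ≤ a ∧ rr p M ≤ d)) (f : ℤ → k) :
    ∃ φ ∈ Pol k (2 * p * d / 3), (∀ i ∈ Set.Icc (-(d : ℤ) - V) V, φ i = f i) ∧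
      φ (p ^ M - a) = f (p ^ M - a) := by
  obtain ⟨n, hn⟩ := Int.eq_ofNat_of_zero_le (show 0 ≤ a + V by omega)
  obtain ⟨j, h1, h2, h3⟩ := sep (k := k) h5 hM (n := n) (d := d) (by zify; omega)
    (hd.imp_right fun h => ⟨by omega, h.2⟩)
  refine interp_step (sub_mem_Pol h2 V) (fun i hi => bn_eq_zero hi.2 (by have := hi.1; omega)) ?_
    (interp_Icc (by omega)) f
  rwa [show (V : ℤ) - (p ^ M - a) = n - p ^ M by omega]

/-- the same for the targets: the far point is `a - p ^ M - d` -/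
theorem interp' (h5 : 5 ≤ p) {V M d : ℕ} {a : ℤ} (hM : 10 * (V + 1) * p ≤ p ^ M) (ha : -V ≤ a)
    (ha' : a < p ^ M - V) (hd : XX p M ≤ d ∨ (XX p M ≤ a ∧ rr p M ≤ d)) (f : ℤ → k) :
    ∃ φ ∈ Pol k (2 * p * d / 3), (∀ i ∈ Set.Icc (-(d : ℤ) - V) V, φ i = f i) ∧
      φ (a - p ^ M - d) = f (a - p ^ M - d) := by
  obtain ⟨φ, hφ, h1, h2⟩ := interp h5 hM ha ha' hd fun i => f (-d - i)
  refine ⟨_, Pol.refl hφ (-d), fun i hi => ?_, ?_⟩
  · simpa using h1 (-d - i) ⟨by have := hi.2; omega, by have := hi.1; omega⟩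
  · rw [show -(d : ℤ) - (a - p ^ M - d) = p ^ M - a by ring, h2]
    congr 1
    ring

end Vale.Agent.P221X.EX
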