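import Vale.Agent.P221X.Base.Spec

/-!
# P221X, block EX: the nodes of the divided differences
-/

set_option linter.all false

noncomputable section

namespace Vale.Agent.P221X.EX

open Finset

variable {p : ℕ} {F : Type} [Field F] (D : GD p F)

/-- the increments of the jumps -/
def cc (p r : ℕ) : ℕ := if r = 1 then 0 else p ^ ((r + 1) / 3)

/-- a bound for the jumps -/
def jj (p i j : ℕ) : ℕ := ∑ r ∈ range (i + j + 1), if i ≡ j [MOD p ^ r] then cc p r else 0

theorem lev1_succ (l : ℕ) : lev1 p (l + 1) = lev1 p l + 2 * p ^ (l + 1) := by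
  induction l with
  | zero => simp [lev1]; ring
  | succ l ih =>
    rw [lev1, pow_succ p (l + 1)]
    nth_rw 1 [ih]
    rw [lev1]
    ring

theorem lev0_succ (l : ℕ) : lev0 p (l + 1) = lev1 p l + p ^ (l + 1) := by
  induction l with
  | zero => simp [lev0, lev1]; ring
  | succ l ih => rw [lev0, ih, lev1]; ring

theorem cc_two (l : ℕ) : cc p (3 * l + 2) = p ^ (l + 1) := by
  rw [cc, if_neg (by omega), show (3 * l + 2 + 1) / 3 = l + 1 by omega]

theorem cc_three (l : ℕ) : cc p (3 * l + 3) = p ^ (l + 1) := by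
  rw [cc, if_neg (by omega), show (3 * l + 3 + 1) / 3 = l + 1 by omega]

theorem lev1_le (l : ℕ) : lev1 p l ≤ ∑ r ∈ range (3 * l + 1), cc p r + 1 := by
  induction l with
  | zero => simp [lev1, cc]
  | succ l ih =>
    rw [lev1_succ, show 3 * (l + 1) + 1 = 3 * l + 3 + 1 by ring, sum_range_succ, cc_three,
      sum_range_succ, cc_two, sum_range_succ]
    omega

theorem lev0_le (l : ℕ) : lev0 p (l + 1) ≤ ∑ r ∈ range (3 * l + 2 + 1), cc p r + 1 := by
  have := lev1_le (p := p) l
  rw [lev0_succ, sum_range_succ, cc_two, sum_range_succ]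
  omega

theorem card_cong (N m i : ℕ) (hi : i ≤ m) :
    (((range (m + 1)).erase i).filter fun l => i ≡ l [MOD N]).card ≤ m / N := by
  have h : ((range (m + 1)).filter fun l => i ≡ l [MOD N]).card ≤ (range (m / N + 1)).card :=
    card_le_card_of_injOn (· / N)
      (fun l hl => mem_coe.2 (mem_range.2 (Nat.lt_succ_of_le (Nat.div_le_div_right
        (Nat.le_of_lt_succ (mem_range.1 (mem_filter.1 (mem_coe.1 hl)).1))))))
      fun a ha b hb e => by
        have h1 : a % N = b % N := (mem_filter.1 (mem_coe.1 ha)).2.symm.trans (mem_filter.1 (mem_coe.1 hb)).2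
        rw [← Nat.div_add_mod a N, ← Nat.div_add_mod b N, h1]
        exact congrArg (N * · + b % N) e
  rw [filter_erase, card_erase_of_mem (mem_filter.2 ⟨mem_range.2 (by omega), Nat.ModEq.refl i⟩)]
  rw [card_range] at h
  exact Nat.sub_le_of_le_add h

theorem cc_le (h5 : 5 ≤ p) (m r : ℕ) : cc p (r + 2) * (m / p ^ (r + 2)) ≤ m / 2 ^ (r + 2) := by
  rw [Nat.le_div_iff_mul_le (by positivity), cc, if_neg (by omega)]
  refine le_trans ?_ (Nat.div_mul_le_self m (p ^ (r + 2)))
  rw [mul_comm (p ^ _), mul_assoc]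
  refine Nat.mul_le_mul_left _ ?_
  obtain ⟨s, hs⟩ : ∃ s, r + 2 = (r + 2 + 1) / 3 + s := ⟨r + 2 - (r + 2 + 1) / 3, by omega⟩
  refine le_trans ?_ (by rw [← pow_add, ← hs] : p ^ ((r + 2 + 1) / 3) * p ^ s ≤ _)
  refine Nat.mul_le_mul_left _ ((Nat.pow_le_pow_right two_pos (show r + 2 ≤ 2 * s by omega)).trans ?_)
  rw [pow_mul]
  exact Nat.pow_le_pow_left (by omega) _

theorem sum_cc (h5 : 5 ≤ p) (m R : ℕ) : ∑ r ∈ range R, cc p r * (m / p ^ r) ≤ m + m / 2 := by
  have : ∀ R, ∑ r ∈ range (R + 2), cc p r * (m / p ^ r) + m / 2 ^ (R + 1) ≤ m + m / 2 := fun R => by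
    induction R with
    | zero => simp [sum_range_succ, cc]
    | succ R ih =>
      have := cc_le h5 m R
      have e : m / 2 ^ (R + 2) = m / 2 ^ (R + 1) / 2 := by rw [Nat.div_div_eq_div_mul, ← pow_succ]
      rw [show R + 1 + 2 = R + 2 + 1 from rfl, show R + 1 + 1 = R + 2 from rfl, sum_range_succ]
      omega
  exact ((sum_le_sum_of_subset (range_subset_range.2 (by omega))).trans (Nat.le_add_right _ _)).trans
    (this R)

theorem sum_jj (h5 : 5 ≤ p) (m i : ℕ) (hi : i ≤ m) :
    ∑ l ∈ (range (m + 1)).erase i, jj p i l ≤ m + m / 2 := by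
  refine le_trans (sum_le_sum (g := fun l => ∑ r ∈ range (2 * m + 1),
    if i ≡ l [MOD p ^ r] then cc p r else 0) fun l hl => sum_le_sum_of_subset
      (range_subset_range.2 (by have := mem_range.1 (mem_erase.1 hl).2; omega))) ?_
  rw [sum_comm]
  refine le_trans (sum_le_sum fun r _ => ?_) (sum_cc h5 m (2 * m + 1))
  rw [← sum_filter, sum_const, smul_eq_mul, mul_comm]
  exact Nat.mul_le_mul_left _ (card_cong _ m i hi)

/-- the nodes of level `l` -/
def tl [hp : Fact p.Prime] (l n : ℕ) : D.G :=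
  if h : n = 0 then 1 else (D.γ₁ ^ p ^ l) ^ (n % p) * (D.γ₂ ^ p ^ l) ^ (n / p % p) *
    ((D.g ^ p ^ l) ^ (n / p / p % p) * tl (l + 1) (n / p / p / p))
termination_by n
decreasing_by
  exact (Nat.div_le_self _ _).trans_lt ((Nat.div_le_self _ _).trans_lt
    (Nat.div_lt_self (Nat.pos_of_ne_zero h) hp.out.one_lt))

variable [hp : Fact p.Prime]

theorem tl_eq (l n : ℕ) : tl D l n = (D.γ₁ ^ p ^ l) ^ (n % p) * (D.γ₂ ^ p ^ l) ^ (n / p % p) *
    ((D.g ^ p ^ l) ^ (n / p / p % p) * tl D (l + 1) (n / p / p / p)) := by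
  rw [tl]
  split_ifs with h
  · subst h
    simp [tl]
  · rfl

theorem pow_mem_Gf {i : ℕ} (hi : 1 ≤ i) {a : D.G} (ha : a ∈ D.Gf i) (l : ℕ) :
    a ^ p ^ l ∈ D.Gf (2 * l + i) := by
  induction l with
  | zero => simpa using ha
  | succ l ih =>
    rw [pow_succ, pow_mul, show 2 * (l + 1) + i = 2 * l + i + 2 by ring]
    exact D.Gf_pow (by omega) ih

theorem tl_mem (n : ℕ) : ∀ l, tl D l n ∈ D.Gf (2 * l + 1) := by
  induction n using Nat.strong_induction_on with
  | _ n ih =>
    intro l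
    rcases Nat.eq_zero_or_pos n with rfl | h
    · rw [tl, dif_pos rfl]
      exact one_mem _
    · rw [tl_eq]
      exact mul_mem (mul_mem (pow_mem (pow_mem_Gf D le_rfl (D.Gf_one _) l) _)
        (pow_mem (pow_mem_Gf D le_rfl (D.Gf_one _) l) _))
        (mul_mem (pow_mem (D.Gf_anti (by omega) (pow_mem_Gf D one_le_two D.g_mem l)) _)
          (D.Gf_anti (by omega) (ih _ ((Nat.div_le_self _ _).trans_lt ((Nat.div_le_self _ _).trans_lt
            (Nat.div_lt_self h hp.out.one_lt))) (l + 1))))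

theorem psi_dvd (l : ℕ) {z : ℤ} (h : D.ψ ^ z ∈ D.Gf (2 * l + 2)) : (p : ℤ) ^ l ∣ z := by
  induction l with
  | zero => simp
  | succ l ih =>
    obtain ⟨j, rfl⟩ := ih (D.Gf_anti (by omega) h)
    have := (D.even_ind l 0 j (by
      rw [zpow_zero, one_mul, ← zpow_natCast, ← zpow_mul]
      exact D.Gf_anti (j := 2 * (l + 1) + 2) (by omega) (by simpa using h))).2
    rw [pow_succ]
    exact mul_dvd_mul_left _ this

theorem eq_of_dvd {a b : ℕ} (h : (p : ℤ) ∣ ((a % p : ℕ) : ℤ) - (b % p : ℕ)) : a % p = b % p := by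
  have := (Nat.modEq_iff_dvd.2 h).symm
  rwa [Nat.ModEq, Nat.mod_mod, Nat.mod_mod] at this

theorem dep_mono {a : PowerSeries F ≃ₐ[F] PowerSeries F} {m n : ℕ} (c : m ≤ n) (h : Dep a n) :
    Dep a m := (pow_dvd_pow _ (by omega)).trans h

theorem modEq_succ {i j r : ℕ} (h : i % p = j % p) (h' : i / p ≡ j / p [MOD p ^ r]) :
    i ≡ j [MOD p ^ (r + 1)] := by
  rw [← Nat.div_add_mod i p, ← Nat.div_add_mod j p, h, pow_succ']
  exact (h'.mul_left' p).add_right _

theorem tl_jump (s : ℕ) : ∀ l i j, i + j = s → i ≠ j → ∃ r, i ≡ j [MOD p ^ r] ∧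
    ¬ Dep (D.act ((tl D l j)⁻¹ * tl D l i)) (∑ t ∈ range (3 * l + r + 1), cc p t + 1) := by
  induction s using Nat.strong_induction_on with
  | _ s ih =>
    intro l i j hs hij
    have m2 : ∀ n, (D.g ^ p ^ l) ^ (n / p / p % p) * tl D (l + 1) (n / p / p / p) ∈
        D.Gf (2 * l + 2) := fun n => mul_mem (pow_mem (pow_mem_Gf D one_le_two D.g_mem l) _)
          (D.Gf_anti (by omega) (tl_mem D _ (l + 1)))
    by_cases c : i % p = j % p ∧ i / p % p = j / p % p
    · by_cases c' : i / p / p % p = j / p / p % p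
      · have e : ∀ n, n = n % p + p * (n / p % p + p * (n / p / p % p + p * (n / p / p / p))) :=
          fun n => by simp only [Nat.mod_add_div]
        have ne : i / p / p / p ≠ j / p / p / p := fun h => hij (by rw [e i, e j, c.1, c.2, c', h])
        have lt : ∀ n, n / p / p / p * 2 ≤ n := fun n =>
          (Nat.mul_le_mul (Nat.div_le_div_right ((Nat.div_le_self _ _).trans (Nat.div_le_self _ _)))
            hp.out.two_le).trans (Nat.div_mul_le_self n p)
        obtain ⟨r, h1, h2⟩ := ih _ (by have := lt i; have := lt j; omega) (l + 1) _ _ rfl ne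
        refine ⟨r + 1 + 1 + 1, modEq_succ c.1 (modEq_succ c.2 (modEq_succ c' h1)), ?_⟩
        rw [tl_eq D l i, tl_eq D l j, c.1, c.2, c', show 3 * l + (r + 1 + 1 + 1) = 3 * (l + 1) + r by ring]
        simpa [mul_assoc] using h2
      · refine ⟨2, modEq_succ c.1 (modEq_succ c.2 (by simp [Nat.modEq_one])), fun h =>
          D.keat_even l _ ?_ (fun z hz => c' ?_) (dep_mono (lev0_le l) h)⟩
        · rw [tl_eq D l i, tl_eq D l j, c.1, c.2]
          simpa [mul_assoc] using mul_mem (inv_mem (m2 j)) (m2 i)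
        · rw [tl_eq D l i, tl_eq D l j, c.1, c.2] at hz
          have a1 := tl_mem D (i / p / p / p) (l + 1)
          have a2 := tl_mem D (j / p / p / p) (l + 1)
          rw [show 2 * (l + 1) + 1 = 2 * l + 3 by ring] at a1 a2
          have cm : ∀ a, Commute (D.ψ ^ z) a := fun a => (show Commute D.ψ a from D.ψ_comm a).zpow_left z
          have a3 : (D.g ^ p ^ l) ^ (((i / p / p % p : ℕ) : ℤ) - (j / p / p % p : ℕ)) * D.ψ ^ z ∈
              D.Gf (2 * l + 3) := by
            have := mul_mem (mul_mem a2 hz) (inv_mem a1)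
            rw [← mul_assoc _ (D.ψ ^ z), ← (cm _).eq] at this
            rw [← (cm _).eq, sub_eq_neg_add, zpow_add, zpow_neg, zpow_natCast, zpow_natCast]
            simpa [mul_assoc] using this
          obtain ⟨y, rfl⟩ := psi_dvd D l (z := z) (by
            have := mul_mem (inv_mem (zpow_mem (pow_mem_Gf D one_le_two D.g_mem l)
              (((i / p / p % p : ℕ) : ℤ) - (j / p / p % p : ℕ))))
              (D.Gf_anti (show 2 * l + 2 ≤ 2 * l + 3 by omega) a3)
            rwa [inv_mul_cancel_left] at this)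
          refine eq_of_dvd (D.even_ind l _ y ?_).1
          rwa [← zpow_natCast D.ψ, ← zpow_mul, Nat.cast_pow]
    · refine ⟨0, by simp [Nat.modEq_one], fun h => D.keat_odd l _
        (mul_mem (inv_mem (tl_mem D j l)) (tl_mem D i l)) (fun hz => c ?_) (dep_mono (lev1_le l) h)⟩
      rw [tl_eq D l i, tl_eq D l j] at hz
      have := (D.Gf_normal _).conj_mem _ (mul_mem (mul_mem (m2 j) hz) (inv_mem (m2 i)))
        ((D.γ₂ ^ p ^ l) ^ (j / p % p))
      have h3 := D.odd_ind l (((i % p : ℕ) : ℤ) - (j % p : ℕ)) (((i / p % p : ℕ) : ℤ) - (j / p % p : ℕ))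
        (by
          rw [sub_eq_neg_add, zpow_add, zpow_neg, zpow_sub, zpow_natCast, zpow_natCast, zpow_natCast,
            zpow_natCast]
          simpa [mul_assoc] using this)
      exact ⟨eq_of_dvd h3.1, eq_of_dvd h3.2⟩

/-- the jumps between two nodes -/
theorem nd_jump {i j : ℕ} (h : i ≠ j) :
    ¬ Dep (D.act ((tl D 0 j)⁻¹ * tl D 0 i)) (jj p i j + 1) := fun H => by
  obtain ⟨r, h1, h2⟩ := tl_jump D _ 0 i j rfl h
  refine h2 (dep_mono (Nat.succ_le_succ ?_) H)
  have hr : r ≤ i + j := by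
    by_contra! c
    have := Nat.lt_pow_self (n := r) hp.out.one_lt
    exact h (h1.eq_of_lt_of_lt (by omega) (by omega))
  rw [mul_zero, zero_add]
  refine le_trans (sum_le_sum fun t ht => ?_) (sum_le_sum_of_subset (range_subset_range.2
    (Nat.succ_le_succ hr)))
  rw [if_pos (h1.of_dvd (pow_dvd_pow _ (Nat.le_of_lt_succ (mem_range.1 ht))))]

end Vale.Agent.P221X.EX
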