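import Vale.Agent.P221X.EX.Glue
import Vale.Agent.P221X.EX.DD
import Vale.Agent.P221X.EX.Nod

/-!
# P221X, block EX: the row `RowEX`
-/

set_option linter.all false

noncomputable section

namespace Vale.Agent.P221X.EX

open Finset

variable {p : ℕ} {F : Type} [Field F]

theorem IsSub.gain {σ : Ls F →ₗ[F] Ls F} (h : IsSub σ) (e : ℤ) (f : Ls F) (hf : Ge e f) :
    Ge (e + 1) (σ f - f) := by
  have key : ∀ i : ℤ, Ge (i + 1) (σ (mon F i) - mon F i) := fun i => by
    induction i using Int.induction_on with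
    | zero => rw [mon_zero, h.map_one, sub_self]; exact Ge.zero _
    | succ i ih =>
      have := ((h.cont _ _ (ge_mon i)).mul h.one).add ((ih.mul (ge_mon 1)).mono (by omega))
      rw [mon_add, h.map_mul]
      convert this.mono (e' := i + 1 + 1) (by omega) using 1
      ring
    | pred i ih =>
      have := (ge_mon (-1)).mul (ih.sub (((h.cont _ _ (ge_mon (-i - 1))).mul h.one).mono (by omega)))
      have e1 : mon F (-i) = mon F (-i - 1) * mon F 1 := by rw [← mon_add]; congr 1; ring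
      have e2 : mon F (-1) * mon F 1 = 1 := by rw [← mon_add]; rfl
      rw [e1, h.map_mul] at this
      convert this.mono (e' := -i - 1 + 1) (by omega) using 1
      linear_combination (mon F (-i - 1) - σ (mon F (-i - 1))) * e2
  have := ((h.cont _ _ hf.tail).sub hf.tail).add ((key e).smul (f.coeff e))
  rw [map_sub, map_smul, smul_sub] at this
  convert this using 1
  ring

/-- an operator on `KK F` as an operator on `Ls F` -/
def toL : Module.End F (KK F) →+ (Ls F →ₗ[F] Ls F) where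
  toFun A := ⟨⟨fun f => KK.toH (A (KK.ofH f)), fun f g => A.map_add (KK.ofH f) (KK.ofH g)⟩,
    fun c f => A.map_smul c (KK.ofH f)⟩
  map_zero' := rfl
  map_add' _ _ := rfl

theorem toL_apply (A : Module.End F (KK F)) (f : Ls F) : toL A f = KK.toH (A (KK.ofH f)) := rfl

theorem coeff_inc_ne (f : Ls F) {n : ℤ} (h : ¬ ((p + 1 : ℕ) : ℤ) ∣ n) : (inc p F f).coeff n = 0 :=
  HahnSeries.embDomain_notin_range fun ⟨m, e⟩ => h ⟨m, e.symm⟩

theorem inc_mem (f : Ls F) : KK.ofH (inc p F f) ∈ KK.inv (F := F) (p + 1) :=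
  fun _ h => coeff_inc_ne f h

theorem exists_inc {z : KK F} (hz : z ∈ KK.inv (p + 1)) : ∃ f, z = KK.ofH (inc p F f) := by
  obtain ⟨e, he⟩ := KK.exists_ge z
  refine ⟨KK.toH (KK.mk (fun n => KK.cf ((p + 1) * n) z) (-|e|) fun m hm => he _ ?_), KK.ext fun n => ?_⟩
  · have := neg_abs_le e
    nlinarith [abs_nonneg e, Int.natCast_nonneg p]
  · by_cases c : ((p + 1 : ℕ) : ℤ) ∣ n
    · obtain ⟨m, rfl⟩ := c
      exact (coeff_inc p (KK.toH (KK.mk (fun n => KK.cf ((p + 1) * n) z) _ _)) m).symm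
    · exact (hz n c).trans (coeff_inc_ne _ c).symm

theorem coeff_prj_mul (z : KK F) (g : Ls F) :
    (KK.toH (KK.prj (p + 1) z) * inc p F g).coeff (p + 1) = (KK.toH z * inc p F g).coeff (p + 1) := by
  rw [← sub_eq_zero, ← HahnSeries.coeff_sub, ← sub_mul, HahnSeries.coeff_mul]
  refine sum_eq_zero fun ij hij => ?_
  have h := (Finset.mem_antidiagonal.1 hij).2.2
  by_cases c : ((p + 1 : ℕ) : ℤ) ∣ ij.2
  · have : ((p + 1 : ℕ) : ℤ) ∣ ij.1 := (dvd_add_left c).1 (h ▸ dvd_rfl)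
    rw [HahnSeries.coeff_sub, ← KK.cf_apply, KK.cf_prj, if_pos this, KK.cf_apply, sub_self, zero_mul]
  · rw [coeff_inc_ne g c, mul_zero]

theorem bil_mon (A : Ls F →ₗ[F] Ls F) (f : Ls F) (m : ℤ) :
    bil p A f (mon F (1 - m)) = (A (inc p F f)).coeff ((p + 1) * m) := by
  rw [bil_apply, inc_mon, ← coeff_mul_mon _ ((p + 1) * (1 - m)) ((p + 1) * m),
    show ((p : ℤ) + 1) * m + (p + 1) * (1 - m) = p + 1 by ring]

theorem exists_ps {a : KK F} (h : a ∈ KK.ge 0) : ∃ b, a = algebraMap (PowerSeries F) (KK F) b :=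
  ⟨PowerSeries.mk fun n => KK.cf n a, KK.ext fun n => by
    rcases lt_or_ge n 0 with c | c
    · rw [h n c, KK.cf_algebraMap_neg _ c]
    · obtain ⟨m, rfl⟩ := Int.eq_ofNat_of_zero_le c
      rw [KK.cf_algebraMap, PowerSeries.coeff_mk]⟩

theorem uz_nat (n : ℕ) : (KK.uz n : KK F) = algebraMap (PowerSeries F) (KK F) (.X ^ n) := by
  induction n with
  | zero => simp
  | succ n ih => rw [Nat.cast_succ, KK.uz_add, pow_succ, map_mul, ih, KK.algebraMap_X]

variable {D : GD p F} {R : Type} [Ring R] [Algebra F R] (S : RD D R)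

include S in
theorem isSub_act (a : D.G) : IsSub (toL (D.actK a).toLinearMap) where
  map_one := map_one (D.actK a)
  map_mul f g := map_mul (D.actK a) (KK.ofH f) (KK.ofH g)
  cont e f hf := by
    have := S.gain (n := 0) (S.fil_zero (S.gr a)) (z := KK.ofH f) hf
    rwa [S.op_gr, Nat.cast_zero, add_zero] at this
  one := by
    obtain ⟨b, hb⟩ := D.dep_one a
    have : D.actK a (KK.uz 1) - KK.uz 1 ∈ KK.ge (2 + 0) := by
      rw [← KK.algebraMap_X, D.actK_alg, ← map_sub, hb, map_mul, ← uz_nat]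
      exact KK.mul_mem_ge (KK.uz_mem_ge _) (KK.algebraMap_mem_ge _)
    exact this

theorem dep_of_ge {a : D.G} {n : ℕ} (h : D.actK a (KK.uz 1) - KK.uz 1 ∈ KK.ge (n + 1)) :
    Dep (D.act a) n := by
  rw [← KK.algebraMap_X, D.actK_alg, ← map_sub] at h
  exact PowerSeries.X_pow_dvd_iff.2 fun m hm => by
    rw [← KK.cf_algebraMap]
    exact h m (by omega)

variable [hp : Fact p.Prime] [CharP F p]

include S in
theorem nodes_tl (h5 : 5 ≤ p) :
    Nodes (fun l => toL (D.actK (tl D 0 l)).toLinearMap) fun m => m + m / 2 where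
  sub l := isSub_act S _
  jump := ⟨jj p, fun i l h H => nd_jump D h (dep_of_ge (by
    have := (isSub_act S (tl D 0 l)⁻¹).cont _ _ H
    have e : D.actK (tl D 0 l)⁻¹ (D.actK (tl D 0 i) (KK.uz 1) - D.actK (tl D 0 l) (KK.uz 1)) =
        D.actK ((tl D 0 l)⁻¹ * tl D 0 i) (KK.uz 1) - KK.uz 1 := by
      rw [map_sub, ← AlgEquiv.mul_apply, ← AlgEquiv.mul_apply, ← map_mul, ← map_mul, inv_mul_cancel,
        map_one, AlgEquiv.one_apply]
    rw [← e]
    exact this.mono (by push_cast; omega))), fun m i hi => sum_jj h5 m i hi⟩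

/-- the invariant elements -/
def Rmu : AddSubgroup R where
  carrier := {r | S.mu r = r}
  zero_mem' := map_zero _
  add_mem' h h' := by rw [Set.mem_setOf_eq, map_add, h, h']
  neg_mem' h := by rw [Set.mem_setOf_eq, map_neg, h]

/-- small multiples of `u` -/
def Iu (n : ℕ) : AddSubgroup R where
  carrier := {r | r ∈ S.fil (4 * n) ∧ (0 < n → ∃ r', r = S.sc .X * r')}
  zero_mem' := ⟨zero_mem _, fun _ => ⟨0, (mul_zero _).symm⟩⟩
  add_mem' h h' := ⟨add_mem h.1 h'.1, fun c => let ⟨a, ha⟩ := h.2 c; let ⟨b, hb⟩ := h'.2 c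
    ⟨a + b, by rw [ha, hb, mul_add]⟩⟩
  neg_mem' h := ⟨neg_mem h.1, fun c => let ⟨a, ha⟩ := h.2 c; ⟨-a, by rw [ha, mul_neg]⟩⟩

theorem Iu_anti {m n : ℕ} (h : m ≤ n) : Iu S n ≤ Iu S m := fun _ hr =>
  ⟨S.anti (by omega) hr.1, fun c => hr.2 (by omega)⟩

theorem pow_mem_Iu (n : ℕ) (r : R) : S.sc .X ^ n * r ∈ Iu S n := by
  refine ⟨?_, fun c => ⟨S.sc .X ^ (n - 1) * r, by rw [← mul_assoc, ← pow_succ', Nat.sub_add_cancel c]⟩⟩
  induction n with
  | zero => exact S.fil_zero _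
  | succ n ih =>
    rw [pow_succ', mul_assoc, mul_add, add_comm]
    exact S.mul_mem S.u_mem ih

theorem Iu_lim (hmu : RowMU S) (s : ℕ → R) (h0 : ∀ n, S.mu (s n) = s n) (h : ∀ n, s n ∈ Iu S n) :
    ∃ r, S.mu r = r ∧ ∀ n, r - ∑ i ∈ range n, s i ∈ Iu S n := by
  obtain ⟨a, a1, a2⟩ := hmu.lim (fun n => ∑ i ∈ range n, s i)
    (fun n => (sum_mem fun i _ => h0 i : ∑ i ∈ range n, s i ∈ Rmu S)) fun n => by
      rw [sum_range_succ, add_sub_cancel_left]
      exact S.anti (by omega) (h n).1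
  have e : ∀ n m, n ≤ m → a - ∑ i ∈ range n, s i - ∑ i ∈ Ico n m, s i = a - ∑ i ∈ range m, s i :=
    fun n m c => by rw [sub_sub, sum_range_add_sum_Ico _ c]
  have e' : ∀ n m, ∑ i ∈ Ico n m, s i ∈ Iu S n := fun n m =>
    sum_mem fun i hi => Iu_anti S (mem_Ico.1 hi).1 (h i)
  refine ⟨a, a1, fun n => ⟨?_, fun c => hmu.closed _ fun w => ?_⟩⟩
  · rw [← sub_add_cancel (a - _) (∑ i ∈ Ico n (4 * n), s i), e n _ (by omega)]
    exact add_mem (a2 _) (e' n _).1
  · obtain ⟨r, hr⟩ := (e' n (n + w)).2 c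
    exact ⟨r, by rw [← hr, e n _ (by omega)]; exact S.anti (by omega) (a2 _)⟩

/-- the data of the block EX -/
def dat (h5 : 5 ≤ p) (hmu : RowMU S) : Dat p F (Rmu S) where
  act := toL.comp (S.op.toRingHom.toAddMonoidHom.comp (Rmu S).subtype)
  I n := (Iu S n).addSubgroupOf _
  σ l := toL (D.actK (tl D 0 l)).toLinearMap
  cost m := m + m / 2
  w := 1
  w_pos := one_pos
  anti _ _ h _ hr := Iu_anti S h hr
  lim s hs := let ⟨r, r1, r2⟩ := Iu_lim S hmu (fun n => s n) (fun n => (s n).2) hs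
    ⟨⟨r, r1⟩, fun n => by simpa [AddSubgroup.mem_addSubgroupOf] using r2 n⟩
  gain N := ⟨N.toNat, fun r hr e f hf =>
    Ge.mono (S.gain (n := N.toNat) hr.1 (z := KK.ofH f) hf) (by omega)⟩
  nodes := nodes_tl S h5
  cost_le j d h := by
    have := (Nat.le_div_iff_mul_le three_pos).1 h
    rw [mul_assoc] at this
    rw [add_mul]
    omega
  fin n j a ha := by
    have : ∀ l, ∃ b, KK.ofH (a l) = algebraMap (PowerSeries F) (KK F) (.X ^ n * b) := fun l => by
      obtain ⟨b, hb⟩ := exists_ps (a := KK.uz (-n) * KK.ofH (a l))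
        (by simpa using KK.mul_mem_ge (KK.uz_mem_ge (-n)) (show KK.ofH (a l) ∈ KK.ge n from ha l))
      exact ⟨b, by rw [map_mul, ← hb, ← uz_nat, ← mul_assoc, ← KK.uz_add, add_neg_cancel,
        KK.uz_zero, one_mul]⟩
    choose b hb using this
    obtain ⟨r, r', h1, h2, h3⟩ := hmu.avg (∑ l ∈ range j, S.sc (b l) * S.gr (tl D 0 l)) n
    refine ⟨⟨r, h1⟩, show r ∈ Iu S n from h2 ▸ pow_mem_Iu S n r', LinearMap.ext₂ fun f g => ?_⟩
    have e : S.op (S.sc .X ^ n * ∑ l ∈ range j, S.sc (b l) * S.gr (tl D 0 l)) (KK.ofH (inc p F f)) =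
        ∑ l ∈ range j, KK.ofH (a l) * D.actK (tl D 0 l) (KK.ofH (inc p F f)) := by
      rw [mul_sum, map_sum, LinearMap.sum_apply]
      refine sum_congr rfl fun l _ => ?_
      rw [← mul_assoc, ← map_pow, ← map_mul, map_mul, Module.End.mul_apply, S.op_sc, S.op_gr, hb]
    have e' := coeff_prj_mul (p := p) (S.op (S.sc .X ^ n * ∑ l ∈ range j, S.sc (b l) *
      S.gr (tl D 0 l)) (KK.ofH (inc p F f))) g
    rw [← h3 _ (inc_mem f), e] at e'
    rw [bil_apply, bil_apply, opS_apply]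
    exact e'

theorem op_inv (hmu : RowMU S) {θ : R} (h : S.mu θ = θ) {z : KK F} (hz : z ∈ KK.inv (p + 1)) :
    S.op θ z ∈ KK.inv (p + 1) := by
  rw [← KK.prj_of_mem hz, hmu.prj θ h]
  exact KK.prj_mem_inv _ _

theorem xp_eq (k : ℤ) : xp p k = KK.ofH (inc p F (mon F (-k))) := by
  rw [inc_mon, xp, show -((p + 1 : ℕ) : ℤ) * k = (p + 1) * -k by push_cast; ring]
  rfl

theorem exists_inZ {z : KK F} (hz : z ∈ Zx p) : ∃ f, InZ f ∧ z = KK.ofH (inc p F f) := by
  obtain ⟨f, rfl⟩ := exists_inc hz.1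
  exact ⟨f, fun n hn => (coeff_inc p f n).symm.trans (hz.2 _ (by positivity)), rfl⟩

theorem lx (g : Ls F) (m : ℤ) : (KK.cf (p + 1) ∘ₗ LinearMap.mulRight F (KK.ofH (inc p F g))) (xp p m) =
    g.coeff (1 + m) := by
  have := coeff_mon_mul ((p + 1) * -m) ((p + 1) * (1 + m)) (inc p F g)
  rw [show ((p : ℤ) + 1) * (1 + m) + (p + 1) * -m = p + 1 by ring, coeff_inc] at this
  rw [xp_eq, inc_mon]
  exact this

/-- **Row EX** -/
theorem rowEX (h5 : 5 ≤ p) (hmu : RowMU S) : RowEX S := by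
  have h0 : S.mu (S.gr D.g - 1) = S.gr D.g - 1 := by rw [map_sub, map_one, S.mu_gr, D.cj_g]
  have e0 : ∀ f, (dat S h5 hmu).act ⟨_, h0⟩ f = toL (D.actK D.g).toLinearMap f - f := fun f => by
    change KK.toH (S.op (S.gr D.g - 1) (KK.ofH f)) = _
    rw [map_sub, map_one, LinearMap.sub_apply, S.op_gr]
    rfl
  obtain ⟨θ, t1, t2, t3, ⟨q, v, v1, v2, v3⟩, g, w, w1, w2, w3⟩ :=
    ex_of dd per_opS p F _ (dat S h5 hmu) ⟨_, h0⟩ h5 (by
      have := per_opS p F Bool univ (fun b => cond b 1 (-1))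
        (fun b => cond b (toL (D.actK D.g).toLinearMap) LinearMap.id)
        (fun b => by cases b; exacts [isSub_id, isSub_act S _])
        fun b => by cases b; exacts [(ge_mon 0).neg, ge_mon 0]
      convert this using 2
      ext1 f
      rw [e0]
      simp [opS_apply, sub_eq_add_neg])
      (degB_bil (N := 1) (fun e f hf => e0 f ▸ (isSub_act S _).gain e f hf) (by simp))
      (by rw [bil_apply, e0, map_one (inc p F), (isSub_act S _).map_one, sub_self, zero_mul]; rfl)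
  have m4 : (θ : R) - (S.gr D.g - 1) ∈ S.fil 4 := S.anti (by norm_num [dat]) t1.1
  have m3 := S.anti (show 3 ≤ 4 by omega) m4
  have ac : ∀ f m, KK.cf ((p + 1) * m) (S.op θ (KK.ofH (inc p F f))) =
      bil p ((dat S h5 hmu).act θ) f (mon F (1 - m)) := fun f m => (bil_mon _ f m).symm
  refine ⟨θ, ⟨θ.2, ?_, ?_, ?_⟩, fun z hz => ⟨op_inv S hmu θ.2 hz.1, fun n hn => ?_⟩,
    ⟨fun n => KK.ofH (inc p F (q n)), fun n => -v n, fun _ _ h => neg_lt_neg (v1 h), neg_neg_of_pos v2,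
      fun n => ⟨⟨inc_mem _, ?_⟩, KK.ext fun m => ?_⟩⟩,
    fun n => KK.cf (p + 1) ∘ₗ LinearMap.mulRight F (KK.ofH (inc p F (g n))),
    fun n => (w n - 1).toNat, fun a b h => ?_, fun n => ⟨?_, fun m hm => ?_, fun z hz => ?_⟩⟩
  · simpa using add_mem m3 (S.wt_even 0 D.g D.g_mem)
  · have := (S.sym_eq_zero m3).2 m4
    rwa [map_sub, S.h_sym, sub_eq_zero] at this
  · obtain ⟨r, hr⟩ := t1.2 (by norm_num [dat])
    exact ⟨r, eq_add_of_sub_eq' hr⟩
  · by_cases c : ((p + 1 : ℕ) : ℤ) ∣ n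
    · obtain ⟨m, rfl⟩ := c
      obtain ⟨f, hf, rfl⟩ := exists_inZ hz
      have hm : 0 < m := (pos_iff_pos_of_mul_pos hn).1 (by positivity)
      refine (ac f m).trans (t3 _ _ hf ?_)
      exact (show -(((m - 1).toNat : ℕ) : ℤ) = 1 - m by omega) ▸ inZ_mon _
    · exact op_inv S hmu θ.2 hz.1 n c
  · rw [one_smul, xp_eq, neg_neg]
    have := (v3 n).1.tail.inc p
    rw [map_sub] at this
    exact this.mono (by push_cast; nlinarith)
  · by_cases c : ((p + 1 : ℕ) : ℤ) ∣ m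
    · obtain ⟨m, rfl⟩ := c
      exact (ac _ m).trans (LinearMap.congr_fun (v3 n).2 _)
    · exact op_inv S hmu θ.2 (inc_mem _) m c
  · have := w1 h
    have := w1.monotone (Nat.zero_le a)
    simp only
    omega
  · have := w1.monotone (Nat.zero_le n)
    rw [lx, show 1 + (((w n - 1).toNat : ℕ) : ℤ) = w n by omega, (w3 n).1.2]
  · exact (lx _ _).trans ((w3 n).1.1 _ (by simp only at hm; omega))
  · obtain ⟨f, hf, rfl⟩ := exists_inZ hz
    exact LinearMap.congr_fun (w3 n).2 f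

end Vale.Agent.P221X.EX
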