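import Vale.Agent.P221X.EX.Bas

/-!
# P221X, block EX: the triangular correction and one step of the construction
-/

set_option linter.all false

noncomputable section

namespace Vale.Agent.P221X.EX

open Finset

variable {p : ℕ} {k : Type} [Field k] {R : Type} [AddCommGroup R] (C : Fm p k R)

/-- small elements of large degree -/
def Fm.J (d : ℕ) : AddSubgroup R where
  carrier := {r | r ∈ C.I d ∧ DegB (C.β r) d}
  zero_mem' := ⟨zero_mem _, by rw [map_zero]; exact DegB.zero _⟩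
  add_mem' h h' := ⟨add_mem h.1 h'.1, by rw [map_add]; exact h.2.add h'.2⟩
  neg_mem' h := ⟨neg_mem h.1, by rw [map_neg, ← neg_one_smul k]; exact h.2.smul _⟩

theorem Fm.J_anti {d d' : ℕ} (h : d ≤ d') : C.J d' ≤ C.J d := fun _ hr =>
  ⟨C.anti h hr.1, hr.2.mono (by omega)⟩

theorem Fm.lim' (t : ℕ → R) (d0 : ℕ) (h : ∀ i, t i ∈ C.J (d0 + i)) :
    ∃ r, ∀ n, r - ∑ i ∈ range n, t i ∈ C.J (d0 + n) := by
  obtain ⟨r, hr⟩ := C.lim t fun n => C.anti (by omega) (h n).1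
  refine ⟨r, fun n => ?_⟩
  obtain ⟨N, hN⟩ := C.gain (d0 + n : ℕ)
  have e : r - ∑ i ∈ range n, t i = (r - ∑ i ∈ range (N + d0 + n), t i) +
      ∑ i ∈ Ico n (N + d0 + n), t i := by
    rw [← sum_range_add_sum_Ico t (show n ≤ N + d0 + n by omega)]
    abel
  rw [e]
  exact add_mem ⟨C.anti (by omega) (hr _), hN _ (C.anti (by omega) (hr _))⟩
    (sum_mem fun i hi => C.J_anti (by have := (mem_Ico.1 hi).1; omega) (h i))

/-- the triangular correction -/
theorem Fm.tri {F G : ℤ → Ls k} (hF : ∀ i, Lead i (F i)) (hG : ∀ i, Lead i (G i))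
    (P : ℤ → ℤ → Prop) (y : ℤ → ℤ → k) {d0 : ℕ} (h0 : 1 ≤ d0)
    (hy : ∀ a b, P a b → 1 < a + b + d0 → y a b = 0)
    (itp : ∀ d : ℕ, d0 ≤ d → ∀ ψ : ℤ → k, ∃ φ ∈ Pol k (2 * p * d / 3),
      ∀ a, P a (1 - d - a) → φ a = ψ a) :
    ∃ s ∈ C.J d0, ∀ a b, P a b → C.β s (F a) (G b) = y a b := by
  have st : ∀ (r : R) (n : ℕ), ∃ s ∈ C.J (d0 + n), ∀ a b, P a b → a + b + (d0 + n : ℕ) = 1 →
      C.β (r + s) (F a) (G b) = y a b := fun r n => by
    obtain ⟨φ, hφ, e⟩ := itp (d0 + n) (by omega) fun a =>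
      y a (1 - (d0 + n : ℕ) - a) - C.β r (F a) (G (1 - (d0 + n : ℕ) - a))
    obtain ⟨s, s1, s2, s3⟩ := C.ctl (d0 + n) (by omega) φ hφ
    refine ⟨s, ⟨s1, s2⟩, fun a b hP c => ?_⟩
    obtain rfl : b = 1 - (d0 + n : ℕ) - a := by omega
    rw [map_add, LinearMap.add_apply, LinearMap.add_apply, s2.lead (hF a) (hG _) c, s3, e a hP]
    ring
  choose s s1 s2 using st
  let S : ℕ → R := fun n => Nat.rec 0 (fun n r => r + s r n) n
  have eS : ∀ n, S n = ∑ i ∈ range n, s (S i) i := fun n => by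
    induction n with
    | zero => rfl
    | succ n ih => rw [sum_range_succ, ← ih]
  obtain ⟨r, hr⟩ := C.lim' (fun n => s (S n) n) d0 fun n => s1 _ _
  have r0 : r ∈ C.J d0 := by simpa using hr 0
  refine ⟨r, r0, fun a b hP => ?_⟩
  by_cases c : 1 < a + b + d0
  · rw [hy a b hP c, r0.2 _ _ _ _ (hF a).1 (hG b).1 c]
  · obtain ⟨n, hn⟩ : ∃ n : ℕ, a + b + (d0 + n : ℕ) = 1 := ⟨(1 - a - b - d0).toNat, by omega⟩
    have := (hr (n + 1)).2 _ _ _ _ (hF a).1 (hG b).1 (by omega)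
    rw [← eS, map_sub, LinearMap.sub_apply, LinearMap.sub_apply, sub_eq_zero] at this
    exact this.trans (s2 _ n a b hP hn)

/-- the transposed data -/
def Fm.flip : Fm p k R where
  β := (LinearMap.lflip (R := k) (R₀ := k)).toAddMonoidHom.comp C.β
  I := C.I
  anti := C.anti
  lim := C.lim
  gain d := (C.gain d).imp fun _ h r hr => (h r hr).flip
  ctl d hd φ hφ := (C.ctl d hd _ (Pol.refl hφ (1 - d))).imp fun _ h =>
    ⟨h.1, h.2.1.flip, fun i => by
      have := h.2.2 (1 - d - i)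
      rw [sub_sub_cancel] at this
      exact this⟩
  per r := (C.per r).flip

theorem Fm.flip_β (r : R) : C.flip.β r = (C.β r).flip := rfl

theorem Fm.flip_J (d : ℕ) {r : R} (h : r ∈ C.flip.J d) : r ∈ C.J d := ⟨h.1, h.2.flip⟩

/-- towers -/
def Lw (β : Bl k) (v : ℤ) (l : ℕ) : Prop :=
  ∃ f, Lead v f ∧ ∀ e g, Ge e g → 1 < v + l + e → β f g = 0

variable {β : Bl k}

theorem lw_succ {v v' : ℤ} {l : ℕ} {f : Ls k} (h : ∀ e g, Ge e g → 1 < v' + e → β f g = 0)
    (hf : Lead v f) (c : v + l = v') (h0 : β f (mon k (1 - v')) = 0) : Lw β v (l + 1) :=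
  ⟨f, hf, fun e g hg he => by
    have := h _ _ (hg.mono (e' := 1 - v') (by omega)).tail (by omega)
    rwa [map_sub, map_smul, h0, smul_zero, sub_zero] at this⟩

theorem tw_lw (hd : DegB β 1) (hs : StabB β) : Tw (Lw β) where
  zero v := ⟨_, lead_mon v, fun e g hg he => hd _ _ _ _ (ge_mon v) hg (by omega)⟩
  mono v l h := h.imp fun _ h => ⟨h.1, fun e g hg he => h.2 e g hg (by omega)⟩
  top l := ⟨_, lead_mon 0, fun e g _ _ => by
    rw [hd.eq_zero fun i => ?_, LinearMap.zero_apply]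
    by_cases c : 0 < i
    · exact hd _ _ _ _ (ge_mon 0) (ge_mon i) (by omega)
    · exact hs _ _ (inZ_mon 0) ((show -(i.natAbs : ℤ) = i by omega) ▸ inZ_mon i.natAbs)⟩
  inj := by
    have key : ∀ v v' (l l' : ℕ), Lw β v l → ¬ Lw β v (l + 1) → Lw β v' l' → ¬ Lw β v' (l' + 1) →
        v + l = v' + l' → ¬ v < v' := by
      rintro v v' l l' ⟨f, hf, h⟩ n ⟨f', hf', h'⟩ n' e c
      have c' : β f' (mon k (1 - (v' + l'))) ≠ 0 := fun c' => n' (lw_succ h' hf' rfl c')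
      refine n (lw_succ (v' := v' + l') (f := f - (β f (mon k (1 - (v' + l'))) /
        β f' (mon k (1 - (v' + l')))) • f') (fun a g hg ha => ?_)
        ⟨hf.1.sub ((hf'.1.mono c.le).smul _), by simp [hf.2, hf'.1 v c]⟩ e ?_)
      · simp [h a g hg (by omega), h' a g hg ha]
      · simp [div_mul_cancel₀ _ c']
    intro v v' l l' h n h' n' e
    exact le_antisymm (not_lt.1 (key _ _ _ _ h' n' h n e.symm)) (not_lt.1 (key _ _ _ _ h n h' n' e))

theorem per_lw (h : PerB p β) (M : ℕ) : Per (Lw β) (p ^ M) (rr p M) := fun v l hl => by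
  push_cast
  constructor
  · rintro ⟨f, hf, H⟩
    have hf' := hf.mon_mul (-(p : ℤ) ^ M)
    rw [add_neg_cancel_right] at hf'
    refine ⟨_, hf', fun e g hg he => ?_⟩
    have hg' := (ge_mon (-(p : ℤ) ^ M)).mul hg
    have := h M _ _ _ _ hf'.1 hg' (by omega)
    rw [← mul_assoc, ← mul_assoc, ← mon_add, add_neg_cancel, mon_zero, one_mul, one_mul] at this
    rw [← this]
    exact H _ _ hg' (by omega)
  · rintro ⟨f, hf, H⟩
    refine ⟨_, hf.mon_mul _, fun e g hg he => ?_⟩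
    rw [h M _ _ _ _ hf.1 hg (by omega)]
    exact H _ _ ((ge_mon _).mul hg) (by omega)

/-- families of series with given leading terms, monomials in degrees `≤ 0` -/
def Fam (F : ℤ → Ls k) : Prop := (∀ i, Lead i (F i)) ∧ ∀ i ≤ 0, F i = mon k i

theorem Fam.update {F : ℤ → Ls k} (h : Fam F) {v : ℤ} {f : Ls k} (hv : 0 < v) (hf : Lead v f) :
    Fam (Function.update F v f) :=
  ⟨fun i => by
    rcases eq_or_ne i v with rfl | c
    · rwa [Function.update_self]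
    · rw [Function.update_of_ne c]; exact h.1 i,
    fun i hi => by rw [Function.update_of_ne (by omega), h.2 i hi]⟩

theorem kill {G : ℤ → Ls k} (hG : Fam G) (hd : DegB β 1) {v : ℤ} {f : Ls k} (hv : 0 < v)
    (hf : Ge v f) (h : ∀ b ≤ 0, β f (G b) = 0) : β f = 0 :=
  hd.eq_zero fun i => by
    by_cases c : 0 < i
    · exact hd _ _ _ _ hf (ge_mon i) (by omega)
    · exact hG.2 i (not_lt.1 c) ▸ h i (not_lt.1 c)

variable [hp : Fact p.Prime] [CharP k p]

/-- one more element of the kernel -/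
theorem Fm.step (h5 : 5 ≤ p) {θ : R} (hd : DegB (C.β θ) 1) (hs : StabB (C.β θ)) {F G : ℤ → Ls k}
    (hF : Fam F) (hG : Fam G) (V N : ℕ) : ∃ s ∈ C.J (N + 1), ∃ (v : ℕ) (f : Ls k), V < v ∧ Lead v f ∧
      C.β (θ + s) f = 0 ∧ StabB (C.β s) ∧
      ∀ i : ℤ, 0 < i → i ≤ V → C.β s (F i) = 0 ∧ (C.β s).flip (G i) = 0 := by
  obtain ⟨M, hM, a, a1, a2, a3⟩ := (tw_lw hd hs).count_pow h5 (per_lw (C.per θ)) V
    (10 * (V + 1) * p + (p + 1) * (N + 1) * p)
  have hM' : 10 * (V + 1) * p + (p + 1) * (N + 1) * p ≤ p ^ M :=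
    hM.trans (Nat.lt_pow_self hp.out.one_lt).le
  obtain ⟨l, l1, l2, l3⟩ : ∃ l, Lw (C.β θ) (p ^ M - a) l ∧ N + 1 ≤ l ∧
      ∀ d, l ≤ d → XX p M ≤ d ∨ ((XX p M : ℤ) ≤ a ∧ rr p M ≤ d) := by
    rcases a3 with h | h
    · refine ⟨_, h, ?_, fun d hd => .inl hd⟩
      obtain _ | M := M
      · have : 0 < (p + 1) * (N + 1) * p := by have := hp.out.pos; positivity
        omega
      · have : (p + 1) * (N + 1) ≤ p ^ M := Nat.le_of_mul_le_mul_right
          (by rw [← pow_succ]; omega) hp.out.pos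
        simp only [XX, Nat.add_sub_cancel]
        have : N + 1 ≤ p ^ M := by nlinarith
        omega
    · refine ⟨_, h.2, ?_, fun d hd => .inr ⟨h.1, hd⟩⟩
      have := le_rr p M
      refine Nat.le_of_mul_le_mul_left (c := p + 1) ?_ p.succ_pos
      nlinarith
  obtain ⟨f, hf, H⟩ := l1
  obtain ⟨v, hv⟩ := Int.eq_ofNat_of_zero_le (show (0 : ℤ) ≤ p ^ M - a by omega)
  rw [hv] at hf H
  have hF' := hF.update (v := v) (by omega) hf
  obtain ⟨s, s1, s2⟩ := C.tri hF'.1 hG.1 (fun a b => (a ≤ V ∨ a = v) ∧ b ≤ V)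
    (fun a b => if a = v then -C.β θ f (G b) else 0) (d0 := l) (by omega)
    (fun a b _ c => by
      split_ifs with e
      · rw [H _ _ (hG.1 b).1 (by omega), neg_zero]
      · rfl)
    fun d hd ψ => by
      obtain ⟨φ, h1, h2, h3⟩ := interp h5 (by omega) a1 a2 (l3 d hd) ψ
      refine ⟨φ, h1, fun i hi => ?_⟩
      rcases hi.1 with c | c
      · exact h2 i ⟨by omega, c⟩
      · rwa [c, ← hv]
  have s3 : DegB (C.β s) 1 := s1.2.mono (by omega)
  have s4 : ∀ a b : ℤ, a ≤ V → b ≤ V → C.β s (F a) (G b) = 0 := fun a b ha hb => by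
    have := s2 a b ⟨.inl ha, hb⟩
    rwa [Function.update_of_ne (by omega), if_neg (by omega)] at this
  refine ⟨s, C.J_anti l2 s1, v, f, by omega, hf, kill hG (by rw [map_add]; exact hd.add s3)
    (by omega) hf.1 fun b hb => ?_, stab_of fun m m' => ?_, fun i i0 i1 =>
    ⟨kill hG s3 i0 (hF.1 i).1 fun b hb => s4 i b i1 (by omega),
      kill hF s3.flip i0 (hG.1 i).1 fun b hb => s4 b i (by omega) i1⟩⟩
  · have := s2 v b ⟨.inr rfl, by omega⟩
    rw [Function.update_self, if_pos rfl] at this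
    simp [this]
  · rw [← hF.2 _ (by omega), ← hG.2 (-m') (by omega)]
    exact s4 _ _ (by omega) (by omega)

theorem fam_mon : Fam (mon k) := ⟨lead_mon, fun _ _ => rfl⟩

/-- the block `Z → Q` can be prescribed -/
theorem Fm.surj (h5 : 5 ≤ p) (y : ℕ → ℕ → k) {d0 : ℕ} (h0 : 1 ≤ d0)
    (hy : ∀ m m', m + m' + 1 < d0 → y m m' = 0) :
    ∃ s ∈ C.J d0, ∀ m m' : ℕ, C.β s (mon k (-m)) (mon k (-m')) = y m m' := by
  obtain ⟨s, s1, s2⟩ := C.tri lead_mon lead_mon (fun a b => a ≤ 0 ∧ b ≤ 0)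
    (fun a b => y a.natAbs b.natAbs) h0 (fun a b h c => hy _ _ (by omega)) fun d hd ψ => by
      obtain ⟨φ, h1, h2⟩ := interp_Icc (J := 2 * p * d / 3) (b := -d) (c := 0) (by
        have : d ≤ 2 * p * d / 3 := (Nat.le_div_iff_mul_le three_pos).2 (by nlinarith)
        omega) ψ
      exact ⟨φ, h1, fun a ha => h2 a ⟨by omega, ha.1⟩⟩
  exact ⟨s, s1, fun m m' => by simpa using s2 (-m) (-m') ⟨by omega, by omega⟩⟩

end Vale.Agent.P221X.EX
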